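import Vale.Agent.P027H.Inv
import Vale.Agent.P027H.Add

/-!
# P004 C, block INT: one variable measures on an ordinary CM curve (words and rows)
-/

open Finset Vale.Agent.P027H

namespace Vale.Agent.P004C.In

/-- the absolute value attached to an embedding of `ℂ` -/
noncomputable def av (ι : ℂ →+* ℂ_[2]) : AbsoluteValue ℂ ℝ where
  toFun z := ‖ι z‖
  map_mul' x y := by rw [map_mul, norm_mul]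
  nonneg' x := norm_nonneg _
  eq_zero' x := by rw [norm_eq_zero, map_eq_zero]
  add_le' x y := by rw [map_add]; exact norm_add_le _ _

theorem av_apply (ι : ℂ →+* ℂ_[2]) (z : ℂ) : av ι z = ‖ι z‖ := rfl

/-- points of the formal group (`q` is the etale point of order two) -/
def Fm (V : AbsoluteValue ℂ ℝ) (Λ : Submodule ℤ ℂ) (q z : ℂ) : Prop :=
  z ∈ Λ ∨ V (12 * wp Λ q) < V (wp Λ z - wp Λ q)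

/-- the tower of canonical subgroups -/
structure Tw (V : AbsoluteValue ℂ ℝ) (Λ : ℕ → Submodule ℤ ℂ) (t : ℕ → ℂ) (q : ℂ) : Prop where
  lat : ∀ a, IsLat (Λ a)
  mem : ∀ a z, z ∈ Λ (a + 1) ↔ z ∈ Λ a ∨ z - t (a + 1) ∈ Λ a
  nm : ∀ a, t (a + 1) ∉ Λ a
  t0 : t 0 ∈ Λ 0
  dbl : ∀ a, 2 * t (a + 1) - t a ∈ Λ 0
  q2 : 2 * q ∈ Λ 0
  qn : ∀ a, q ∉ Λ a
  can : ∀ a, V (wp (Λ a) (q + t (a + 1)) - wp (Λ a) q) =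
    V 16 * V (wp (Λ a) (t (a + 1)) - wp (Λ a) q)

/-- `f z` is the regularised sum of `ξ m / (z + m)` over `M` -/
structure Kr (Λ M : Submodule ℤ ℂ) {κ : Type} [Fintype κ] (r : κ → ℂ) (ξ f : ℂ → ℂ) : Prop where
  lat : IsLat M
  reps : Reps r Λ M
  mul : ∀ m ∈ M, ∀ m' ∈ M, ξ (m + m') = ξ m * ξ m'
  one : ∀ l ∈ Λ, ξ l = 1
  der : ∀ z ∉ M, HasDerivAt f (-∑ i, ξ (r i) * wp Λ (z + r i)) z
  eig : ∀ z ∉ M, ∀ m ∈ M, ξ m * f (z + m) = f z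

/-- finite Fourier transform -/
noncomputable def ft (w : ℂ_[2]) (a : ℕ) (G : ℕ → ℂ_[2]) (b : ℤ) : ℂ_[2] :=
  ((2 : ℂ_[2]) ^ a)⁻¹ * ∑ j ∈ range (2 ^ a), w ^ (-((j : ℤ) * b)) * G j

/-- what the period `Ω` does for one function -/
structure Ms (ι : ℂ →+* ℂ_[2]) (Λ M : Submodule ℤ ℂ) (t : ℕ → ℂ) (q : ℂ) (ζ : ℕ → ℂ)
    (Ω : ℂ_[2]) (f : ℂ → ℂ) : Prop where
  int : ∀ y, (∀ m ∈ M, ¬ Fm (av ι) Λ q (y + m)) → ∀ (n a : ℕ) (b : ℤ),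
    ‖ft (ι (ζ a)) a (fun j => ι (iteratedDeriv n f (y + j * t a))) b‖ ≤ ‖Ω‖ ^ (n + 1)
  mom : ∀ y, (∀ m ∈ M, ¬ Fm (av ι) Λ q (y + m)) → ∀ (n a : ℕ) (b : ℤ),
    ‖ft (ι (ζ a)) a (fun j => ι (iteratedDeriv (n + 1) f (y + j * t a))) b -
      b * Ω * ft (ι (ζ a)) a (fun j => ι (iteratedDeriv n f (y + j * t a))) b‖ ≤
      ‖(2 : ℂ_[2])‖ ^ a * ‖Ω‖ ^ (n + 2)
  pole : ∀ (a : ℕ) (b : ℤ), ‖ft (ι (ζ a)) a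
    (fun j => if j = 0 then Ω else (ι (ζ a) ^ j - 1) * ι (f (j * t a))) b‖ ≤ ‖Ω‖

/-- row INT1 -/
def INT1 : Prop := ∀ (ι : ℂ →+* ℂ_[2]) (Λ : ℕ → Submodule ℤ ℂ) (t : ℕ → ℂ) (q : ℂ) (ζ : ℕ → ℂ),
  Tw (av ι) Λ t q → (∀ a, IsPrimitiveRoot (ζ a) (2 ^ a)) → (∀ a, ζ (a + 1) ^ 2 = ζ a) →
  ∃ Ω : ℂ_[2], Ω ≠ 0 ∧ ‖Ω‖ ^ 12 = ‖ι (g2 (Λ 0) ^ 3 - 27 * g3 (Λ 0) ^ 2)‖ ∧
    ∀ (M : Submodule ℤ ℂ) (κ : Type) [Fintype κ] (r : κ → ℂ) (ξ f : ℂ → ℂ),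
    Kr (Λ 0) M r ξ f → (∀ m ∈ M, Fm (av ι) (Λ 0) q m → m ∈ Λ 0) → (∀ m ∈ M, av ι (ξ m) = 1) →
    (∃ m ∈ M, av ι (ξ m - 1) = 1) → Ms ι (Λ 0) M t q ζ Ω f

/-- row ORD: CM lattices with two split are ordinary, torsion in the formal group -/
def ORD : Prop := ∀ (ι : ℂ →+* ℂ_[2]) (O : Type) [CommRing O] (j : O →+* ℂ) (P P' : Ideal O)
  (Λ : Submodule ℤ ℂ) (h : ℕ) (π : O), Two j P P' → OLat j Λ → 0 < h → P ^ h = Ideal.span {π} →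
  j π ≠ 0 → av ι (j π) < 1 → ∃ t q, Tw (av ι) (fun a => col j (P ^ a) Λ) t q ∧ q ∈ col j P' Λ ∧
    ∀ (z : ℂ) (n : ℕ), 0 < n → (n : ℂ) * z ∈ Λ → Fm (av ι) Λ q z → ∃ a, z ∈ col j (P ^ a) Λ

/-- row KRX: existence -/
def KRX : Prop := ∀ (Λ M : Submodule ℤ ℂ) (κ : Type) [Fintype κ] (r : κ → ℂ) (ξ : ℂ → ℂ),
  IsLat Λ → IsLat M → Reps r Λ M → (∀ m ∈ M, ∀ m' ∈ M, ξ (m + m') = ξ m * ξ m') →
  (∀ l ∈ Λ, ξ l = 1) → ∀ (d : ℂ) (p : ℕ), d ∈ M → 0 < p → ∑ s ∈ range p, ξ (s * d) = 0 →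
  ∃ f, Kr Λ M r ξ f ∧ ∀ z ∉ M, ∀ n : ℕ, HasSum
    (fun m : M => ∑ s ∈ range p, ∑ s' ∈ range p,
      ξ (m + (s + s') * d) / (z + m + (s + s') * d) ^ (n + 1))
    ((p : ℂ) ^ 2 * ((-1) ^ n / n.factorial * iteratedDeriv n f z))

end Vale.Agent.P004C.In
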