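import Vale.Agent.P004C.In.Int

/-!
# P004 C, block INT: CM lattices with two split are ordinary
-/

open Finset Vale.Agent.P027H

namespace Vale.Agent.P004C.In

namespace Od

open Nv

variable {O : Type} [CommRing O] {j : O →+* ℂ} {P P' : Ideal O} {Λ : Submodule ℤ ℂ}
  (T : Two j P P') (hΛ : OLat j Λ)
include T hΛ

theorem dd : DD j P P' (col j P Λ) = DD j P P' Λ * (1 + bb j P P' Λ) ^ 2 := by
  have h1 := T.ol Λ hΛ
  obtain ⟨a1, a2⟩ := T.cyc.pt h1
  obtain ⟨c1, c2⟩ := T.cyc'.pt hΛ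
  have n1 := T.notMem hΛ
  have d1 := T.DD_ne hΛ
  have e1 := T.symm.ee_eq h1 (col_mono (hΛ.le_col P) P' c1) n1
  have r1 := T.four_sq hΛ a1 a2
  have r4 := T.half hΛ n1
  rw [DD.eq_1 j P P' (col j P Λ), e1, ee, T.velu hΛ, T.velu hΛ, T.wp_four hΛ a1 a2, bb]
  rw [← ee] at r4 ⊢
  have k1 : wp Λ (pt j P' Λ - pt j P Λ) = -ee j P Λ - ee j P' Λ :=
    mul_left_cancel₀ d1 (by rw [DD] at r4 ⊢; linear_combination -r4)
  rw [k1]
  field_simp
  rw [DD] at r1 ⊢
  linear_combination -r1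

omit hΛ in
theorem cop (a : ℕ) : P ^ a ⊔ P' = ⊤ := Ideal.isCoprime_iff_sup_eq.1
  (Ideal.isCoprime_iff_sup_eq.2 T.cop).pow_left

omit T in
theorem c0 : col j (P ^ 0) Λ = Λ := by
  ext z
  exact ⟨fun h => by simpa using h 1 (by simp), fun h => hΛ.le_col _ h⟩

omit T hΛ in
theorem cs (a : ℕ) : col j (P ^ (a + 1)) Λ = col j P (col j (P ^ a) Λ) := by rw [col_col, pow_succ']

omit T hΛ in
theorem cm {z : ℂ} (a : ℕ) : z ∈ col j (P ^ (a + 1)) Λ ↔ z ∈ col j P (col j (P ^ a) Λ) := by rw [cs]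

theorem ol (a : ℕ) : OLat j (col j (P ^ a) Λ) := by
  induction a with
  | zero => rwa [c0 hΛ]
  | succ a ih => rw [cs]; exact T.ol _ ih

theorem qn (a : ℕ) : pt j P' Λ ∉ col j (P ^ a) Λ := fun e =>
  (T.cyc'.pt hΛ).2 (col_inf (cop T a) e (T.cyc'.pt hΛ).1)

theorem ex_t : ∃ t : ℕ → ℂ, t 0 = 0 ∧ ∀ a, t (a + 1) ∈ col j (P ^ (a + 1)) Λ ∧
    t (a + 1) ∉ col j (P ^ a) Λ ∧ 2 * t (a + 1) - t a ∈ Λ := by
  choose x hx y hy e using fun a => Submodule.mem_sup.1 (cop T a ▸ Submodule.mem_top : (1 : O) ∈ P ^ a ⊔ P')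
  let s : ℕ → ℂ := fun a => a.rec (pt j P Λ) fun a s => j (y (a + 1)) * (s / 2)
  have d : ∀ a, s a ∈ col j (P ^ (a + 1)) Λ → 2 * s (a + 1) - s a ∈ Λ := fun a h => by
    have := congrArg j (e (a + 1))
    rw [map_add, map_one] at this
    exact mem_of_eq (neg_mem (h _ (hx _))) (by
      show 2 * (j (y (a + 1)) * (s a / 2)) - s a = _
      linear_combination s a * this)
  have k : ∀ a, s a ∈ col j (P ^ (a + 1)) Λ ∧ s a ∉ col j (P ^ a) Λ := fun a => by
    induction a with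
    | zero => rw [cs, c0 hΛ]; exact T.cyc.pt hΛ
    | succ a ih =>
      refine ⟨(cm _).2 fun c hc => ?_, fun h => ih.2 ?_⟩
      · obtain ⟨u, hu⟩ := Ideal.mem_span_singleton'.1 (T.PP' ▸ Ideal.mul_mem_mul hc (hy (a + 1)))
        have := congrArg j hu
        rw [map_mul, map_mul, map_ofNat] at this
        exact mem_of_eq ((ol T hΛ _).2 u _ ih.1) (by
          show j c * (j (y (a + 1)) * (s a / 2)) = _
          linear_combination (-s a / 2) * this)
      · rw [cs] at h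
        exact mem_of_eq (sub_mem (T.two_mul h) (hΛ.le_col _ (d a ih.1))) (by ring)
  refine ⟨fun a => a.casesOn 0 s, rfl, fun a => ⟨(k a).1, (k a).2, ?_⟩⟩
  cases a with
  | zero => exact mem_of_eq (T.two_mul (T.cyc.pt hΛ).1) (sub_zero _)
  | succ a => exact d a (k a).1

variable {h : ℕ} {π : O} (hP : P ^ h = Ideal.span {π}) (h0 : j π ≠ 0)
include hP h0

theorem hom (a : ℕ) : Hom (j π) (col j (P ^ (a + h)) Λ) (col j (P ^ a) Λ) :=
  ⟨h0, fun z => by rw [add_comm, pow_add, ← col_col, hP, (ol T hΛ a).col_span]⟩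

theorem val (v : Nv) (hh : 0 < h) (hπ : v.V (j π) < 1) (a : ℕ) :
    v.V (bb j P' P (col j (P ^ a) Λ)) = v.V 4 := by
  set k := fun a => bb j P P' (col j (P ^ a) Λ)
  set k' := fun a => bb j P' P (col j (P ^ a) Λ)
  have c : ∀ a, k' a ^ 2 + k a ^ 2 = 1 := fun a => T.circ (ol T hΛ a)
  have l : ∀ a, (1 + k a) * (1 + k' (a + 1)) = 2 := fun a => by
    simp only [k', cs]; exact T.land (ol T hΛ a)
  have p : ∀ a, k (a + h) = k a := fun a =>
    (((hom T hΛ hP h0 a).wt (ol T hΛ _) P P').bb T T).symm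
  have p' : ∀ a, k' (a + h) = k' a := fun a =>
    (((hom T hΛ hP h0 a).wt (ol T hΛ _) P' P).bb T.symm T.symm).symm
  have r : ∀ a, k (a + 1) ^ 2 * (1 + k a) ^ 2 = 4 * k a := fun a => by
    linear_combination (1 + k a) ^ 2 * c (a + 1) - ((1 + k a) * (k' (a + 1) - 1) + 2) * l a
  have r' : ∀ a, k' (a + 1) * (1 + k a) ^ 2 = k' a ^ 2 := fun a => by
    linear_combination (1 + k a) * l a - c a
  have m4 : (4 : ℂ) ∈ v.M := M_eq (two_mul_M (ofNat_mem _ 2)) (by norm_num)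
  have s : ∀ a, ¬ v.U (k a) → k (a + 1) ∈ v.M := fun a hu => M_sq <| by
    by_cases o : k a ∈ v.O
    · have := (U_or o).resolve_left hu
      exact M_of_mul (r a ▸ M_mul m4 o) ((U.one.add this).pow 2)
    · have i := inv_M o
      have k0 : k a ≠ 0 := T.bb_ne (ol T hΛ a)
      refine M_of_mul (M_eq (M_mul m4 (M_O i)) ?_) ((U.one.add i).pow 2)
      field_simp
      linear_combination r a
  have u : ∀ a, v.U (k a) := fun a => by
    by_contra hu
    have m : ∀ n, k (a + n + 1) ∈ v.M := fun n => by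
      induction n with
      | zero => exact s a hu
      | succ n ih => exact s _ fun e => e.not_M ih
    have d : ∀ n, v.V (DD j P P' (col j (P ^ (a + 1 + n)) Λ)) = v.V (DD j P P' (col j (P ^ (a + 1)) Λ)) :=
      fun n => by
        induction n with
        | zero => rfl
        | succ n ih =>
          have : v.V ((1 + k (a + 1 + n)) ^ 2) = 1 :=
            (U.one.add (by rw [add_right_comm]; exact m n)).pow 2
          rw [← add_assoc, cs, dd T (ol T hΛ _), map_mul, ih, this, mul_one]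
    have e := ((hom T hΛ hP h0 (a + 1)).wt (ol T hΛ _) P P').DD T T
    have e' := congrArg v.V e
    rw [map_mul, RingHom.id_apply, d h, map_pow, map_inv₀] at e'
    have := (mul_eq_right₀ (v.V.ne_zero (T.DD_ne (ol T hΛ _)))).1 e'.symm
    rw [inv_pow, inv_eq_one, pow_eq_one_iff_of_nonneg (v.V.nonneg _) two_ne_zero] at this
    exact hπ.ne this
  have v4 : 0 < v.V 4 := v.V.pos (by norm_num)
  have w : ∀ a, v.V (k' (a + 1)) / v.V 4 = (v.V (k' a) / v.V 4) ^ 2 := fun a => by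
    have e1 := congrArg v.V (r a)
    have e2 := congrArg v.V (r' a)
    rw [map_mul, map_mul, (u _).pow 2, u, one_mul, mul_one] at e1
    rw [map_mul, e1, map_pow] at e2
    rw [div_pow, ← e2]; field_simp
  have w' : ∀ n, v.V (k' (a + n)) / v.V 4 = (v.V (k' a) / v.V 4) ^ 2 ^ n := fun n => by
    induction n with
    | zero => simp
    | succ n ih => rw [← add_assoc, w, ih, ← pow_mul, pow_succ]
  have := w' h
  have q : 0 < v.V (k' a) / v.V 4 := div_pos (v.V.pos (T.symm.bb_ne (ol T hΛ a))) v4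
  obtain ⟨n, hn⟩ : ∃ n, 2 ^ h = n + 2 := ⟨2 ^ h - 2, by
    have := Nat.pow_le_pow_right two_pos hh; omega⟩
  rw [p', hn, pow_succ, eq_comm, mul_eq_right₀ q.ne', pow_eq_one_iff_of_nonneg q.le (by omega)] at this
  exact (div_eq_one_iff_eq v4.ne').1 this

omit T hΛ hP h0 in
theorem grow {v : Nv} {q z : ℂ} (a : ℕ) {Λ : ℕ → Submodule ℤ ℂ} {t : ℕ → ℂ} (T : Tw v.V Λ t q)
    (m : Md v) (h1 : m.Λ = Λ 0) (h2 : m.q = q) (hz : z ∉ Λ (a + 1)) (k : 1 < v.V (m.x z)) :
    ∃ m' : Md v, m'.Λ = Λ (a + 1) ∧ m'.q = q ∧ v.V (m.x z) < v.V (m'.x z) := by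
  induction a generalizing Λ t m with
  | zero =>
    obtain ⟨m', c, ε, k1, k2, s⟩ := T.sp h1 h2
    exact ⟨m', k1, k2, s.grow (k1 ▸ hz) (not_le.2 k)⟩
  | succ a ih =>
    obtain ⟨m', c, ε, k1, k2, s⟩ := T.sp h1 h2
    have := s.grow (z := z) (k1 ▸ fun e => hz (T.shift.le _ e)) (not_le.2 k)
    obtain ⟨m'', l1, l2, l3⟩ := ih T.shift m' k1 k2 hz (k.trans this)
    exact ⟨m'', l1, l2, this.trans l3⟩

end Od

open Od

theorem ord : ORD := by
  intro ι O _ j P P' Λ h π T hΛ hh hP h0 hπ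
  obtain ⟨t, t0, ht⟩ := ex_t T hΛ
  obtain ⟨q1, q2⟩ := T.cyc'.pt hΛ
  set q := pt j P' Λ
  have W : Tw (av ι) (fun a => col j (P ^ a) Λ) t q := by
    refine ⟨fun a => (ol T hΛ a).1, fun a z => ⟨fun hz => ?_, ?_⟩, fun a => (ht a).2.1,
      t0 ▸ zero_mem _, fun a => hΛ.le_col _ (ht a).2.2, hΛ.le_col _ (T.symm.two_mul q1), qn T hΛ,
      fun a => ?_⟩
    · by_cases e : z ∈ col j (P ^ a) Λ
      exacts [.inl e, .inr (T.sub_mem (ol T hΛ a) ((cm a).1 hz) e ((cm a).1 (ht a).1) (ht a).2.1)]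
    · have le : col j (P ^ a) Λ ≤ col j (P ^ (a + 1)) Λ := fun _ h => (cm a).2 ((ol T hΛ a).le_col P h)
      rintro (e | e)
      exacts [le e, mem_of_eq (add_mem (le e) (ht a).1) (by ring)]
    · have o := ol T hΛ a
      have m1 : t (a + 1) ∈ col j P (col j (P ^ a) Λ) := (cm a).1 (ht a).1
      have m2 := col_mono (hΛ.le_col (P ^ a)) P' q1
      obtain ⟨-, -, s, -⟩ := roots o.1 (ht a).2.1 (qn T hΛ a) (fun e => qn T hΛ (a + 1)
        ((cm a).2 (mem_of_eq (add_mem (o.le_col P e) m1) (by ring)))) (T.two_mul m1) (T.symm.two_mul m2)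
      obtain ⟨b1, b2⟩ := T.cyc'.pt (T.ol' _ o)
      have e := T.symm.four_sq o b1 b2
      have d := T.symm.DD_ne o
      have e2 : wp (col j (P ^ a) Λ) (q + t (a + 1)) - wp (col j (P ^ a) Λ) q =
          bb j P' P (col j (P ^ a) Λ) ^ 2 * (wp (col j (P ^ a) Λ) (t (a + 1)) - wp (col j (P ^ a) Λ) q) := by
        rw [bb, div_pow, e, DD] at *
        rw [T.ee_eq o m1 (ht a).2.1, T.symm.ee_eq o m2 (qn T hΛ a)] at *
        field_simp
        linear_combination (wp (col j (P ^ a) Λ) q - wp (col j (P ^ a) Λ) (t (a + 1))) * s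
      have := val T hΛ hP h0 (nv ι) hh hπ a
      rw [e2, map_mul, map_pow, show (16 : ℂ) = 4 ^ 2 by norm_num, map_pow]
      exact congrArg (· ^ 2 * _) this
  refine ⟨t, q, W, q1, fun z n hn hz hF => ?_⟩
  by_contra! H
  obtain ⟨m, m1, m2⟩ := Tw.md (v := nv ι) W
  have x : ∀ (m : Md (nv ι)) z, (nv ι).V (m.x z) =
      av ι (wp m.Λ z - wp m.Λ m.q) / av ι (12 * wp m.Λ m.q) := fun m z => by
    rw [Md.x, map_div₀, m.usq]; rfl
  have H0 := hom T hΛ hP h0
  have n1 : ∀ i a, j π ^ i * z ∉ col j (P ^ a) Λ := fun i => by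
    induction i with
    | zero => simpa using H
    | succ i ih => exact fun a e => ih (a + h) (((H0 a).2 _).2 (mem_of_eq e (by ring)))
  have g : ∀ w, (∀ a, w ∉ col j (P ^ a) Λ) → 1 < (nv ι).V (m.x w) →
      (nv ι).V (m.x w) < (nv ι).V (m.x (j π * w)) := fun w hw k => by
    obtain ⟨h, rfl⟩ := Nat.exists_eq_succ_of_ne_zero hh.ne'
    obtain ⟨m', k1, k2, k3⟩ := grow (v := nv ι) h W m m1 m2 (hw _) k
    have e := (H0 0).wp
    have e1 : wp (col j (P ^ 0) Λ) (j π * q) = wp (col j (P ^ 0) Λ) q := by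
      have := fun e => qn T hΛ _ (((H0 0).2 q).2 e)
      rw [c0 hΛ] at this ⊢
      exact (T.symm.ee_eq hΛ ((T.ol' Λ hΛ).2 π _ q1) this).symm
    rw [x m (j π * w), m1, m2, ← e1, e, e, zero_add, ← mul_sub, mul_left_comm, map_mul, map_mul,
      mul_div_mul_left _ _ ((av ι).ne_zero (pow_ne_zero 2 (inv_ne_zero h0)))]
    rwa [x m', k1, k2] at k3
  have g0 : 1 < (nv ι).V (m.x z) := by
    have := hF.resolve_left fun e => H 0 (hΛ.le_col _ e)
    have u := (av ι).pos (pow_ne_zero 2 m.u0)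
    rw [m.usq] at u
    rw [x, one_lt_div u, m1, m2]
    rwa [c0 hΛ]
  have g1 : ∀ i, 1 < (nv ι).V (m.x (j π ^ i * z)) := fun i => by
    induction i with
    | zero => simpa using g0
    | succ i ih => rw [pow_succ', mul_assoc]; exact ih.trans (g _ (n1 i) ih)
  have sm : StrictMono fun i => (nv ι).V (m.x (j π ^ i * z)) := strictMono_nat_of_lt_succ fun i => by
    rw [pow_succ', mul_assoc]; exact g _ (n1 i) (g1 i)
  have n0 : (n : ℂ) ≠ 0 := by exact_mod_cast hn.ne'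
  obtain ⟨κ, _, r, R⟩ := exists_reps ((hom_scl (inv_ne_zero n0) Λ).isLat hΛ.1)
    (fun w hw => by rw [mem_scl, inv_inv]; exact nat_mul_mem n hw) hn fun w hw => by
      rwa [mem_scl, inv_inv] at hw
  choose i hi using fun i => R.ex (j π ^ i * z) (by
    rw [mem_scl, inv_inv, mul_left_comm, ← map_pow]; exact hΛ.2 _ _ hz)
  obtain ⟨a, b, ne, e⟩ := Finite.exists_ne_map_eq_of_infinite i
  refine ne (sm.injective (congrArg _ (m.x_congr ?_)))
  rw [m1, c0 hΛ]
  exact mem_of_eq (sub_mem (hi a) (hi b)) (by rw [e]; ring)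

end Vale.Agent.P004C.In
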