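import Vale.Agent.P004C.In.Stp

/-!
# P004 C, block INT: averages over the canonical subgroups are integral
-/

open Finset Vale.Agent.P027H Filter Topology

namespace Vale.Agent.P004C.In

open Nv Md

namespace Sp

variable {v : Nv} {m m' : Md v} {p c ε z P : ℂ} (h : Sp m m' p c ε) {f g : ℂ → ℂ}
include h

theorem γO : 8 * ε * c - (1 + 16 * c) * ((ε - 1) / 2) ∈ v.O :=
  sub_mem (mul_mem (mul_mem (ofNat_mem _ 8) h.εU.mem) h.cU.mem)
    (mul_mem (add_mem (one_mem _) (mul_mem (ofNat_mem _ 16) h.cU.mem)) h.e1)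

theorem x'O (hz : m.It z) : m'.x z ∈ v.O :=
  O_of_mul (O_eq (mul_mem hz.2 (sub_mem hz.2 (mul_mem (ofNat_mem _ 4) h.cU.mem)))
    ((mul_comm _ _).trans (h.x' (h.nm' hz)))) ((h.εU.pow 2).mul (h.sU hz.2))

theorem it (hz : m.It z) : m'.It z := ⟨h.nm' hz, h.x'O hz⟩

theorem it' (hz : m'.It z) : m.It z := by
  refine ⟨h.nm hz.1, ?_⟩
  by_contra k
  exact k ((h.grow hz.1 k).le.trans hz.2)

theorem cx (hz : m.It z) : m.x z ^ 2 - ε ^ 2 * m'.x z ∈ v.M := by
  have hc := h.cU.mem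
  have e := h.εU.mem
  have a := hz.2
  have a' := h.x'O hz
  refine M_eq (two_mul_M (a := 2 * c * m.x z + 2 * ε ^ 2 * m'.x z * (m.x z + 4 * c)) ?_)
    (by linear_combination -h.x' (h.nm' hz))
  repeat' first | assumption | exact one_mem _ | exact ofNat_mem _ _ |
    with_reducible apply pow_mem | with_reducible apply sub_mem |
    with_reducible apply add_mem | with_reducible apply mul_mem

theorem cy (hz : m.It z) : m.y z ^ 2 +
    (8 * ε * c - (1 + 16 * c) * ((ε - 1) / 2)) * m.x z ^ 2 - ε ^ 3 * m'.y z ∈ v.M := by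
  have hc := h.cU.mem
  have e := h.εU.mem
  have a := hz.2
  have a' := (h.it hz).y
  have b := hz.y
  refine M_eq (two_mul_M (a := 4 * ε ^ 3 * m'.y z * (m.x z + 4 * c) * (1 + 2 * (m.x z + 4 * c)) -
    m.y z * (m.x z * (1 + 8 * c - ε) + m.x z ^ 2 - c * (1 + 16 * c) - ε * m.y z)) ?_)
    (by linear_combination -h.y' (h.nm' hz))
  repeat' first | assumption | exact one_mem _ | exact ofNat_mem _ _ |
    with_reducible apply pow_mem | with_reducible apply sub_mem |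
    with_reducible apply add_mem | with_reducible apply mul_mem

theorem G (hP : m.G P) : m'.G P :=
  ⟨h.nm' hP.it, U.left (b := ε ^ 2) ((hP.2.pow 2).of_sub (M_eq (neg_mem (h.cx hP.it)) (by ring)))
    (h.x'O hP.it) (h.εU.pow 2).mem⟩

theorem D (hP : m.G P) : m'.D P z ↔ m.D P z := by
  have key : m.It z → (m'.D P z ↔ m.D P z) := fun hz => by
    have a := sub_mem (h.cx hz) (h.cx hP.it)
    have b := sub_mem (h.cy hz) (h.cy hP.it)
    have t1 := two_mul_M (mul_mem hP.it.2 (sub_mem hz.2 hP.it.2))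
    have t2 := two_mul_M (mul_mem hP.it.y (sub_mem hz.y hP.it.y))
    have sx := add_mem hz.2 hP.it.2
    constructor
    · rintro ⟨-, k1, k2⟩
      have x1 : m.x z - m.x P ∈ v.M := M_sq (M_eq (sub_mem (add_mem a (mul_M (h.εU.pow 2).mem k1)) t1)
        (by ring))
      exact ⟨hz.1, x1, M_sq (M_eq (sub_mem (sub_mem (add_mem b (mul_M (h.εU.pow 3).mem k2))
        (mul_M h.γO (M_mul x1 sx))) t2) (by ring))⟩
    · rintro ⟨-, k1, k2⟩
      refine ⟨h.nm' hz, M_of_mul (M_eq (sub_mem (M_mul k1 sx) a) (by ring)) (h.εU.pow 2),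
        M_of_mul (M_eq (sub_mem (add_mem (M_mul k2 (add_mem hz.y hP.it.y))
          (mul_M h.γO (M_mul k1 sx))) b) (by ring)) (h.εU.pow 3)⟩
  exact ⟨fun k => (key (h.it' ((h.G hP).itD k))).1 k, fun k => (key (hP.itD k)).2 k⟩

theorem ev (hP : m.G P) (hz : m.D P z) : ∀ᶠ w in 𝓝 z, w ∉ m'.Λ := ((h.D hP).2 hz).ev

theorem rs : m.Rg P fun z => 4 * m.x z + 1 + 16 * c :=
  ((Rg.x.smul (ofNat_mem _ 4)).add (Rg.c _ (one_mem _))).add
    (Rg.c _ (mul_mem (ofNat_mem _ 16) h.cU.mem))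

theorem rr : m.Rg P fun z =>
    m.y z * (m.x z * (1 + 8 * c - ε) + m.x z ^ 2 - c * (1 + 16 * c) - ε * m.y z) := by
  have hc := h.cU.mem
  have e := h.εU.mem
  refine Rg.y.mul ((((Rg.x.mul (Rg.c _ ?_)).add (Rg.x.pow 2)).sub (Rg.c _ ?_)).sub (Rg.y.smul e)) <;>
  repeat' first | assumption | exact one_mem _ | exact ofNat_mem _ _ |
    with_reducible apply pow_mem | with_reducible apply sub_mem |
    with_reducible apply add_mem | with_reducible apply mul_mem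

theorem pull (hP : m.G P) (hf : m'.Rg P f) : m.Rg P f := by
  have s := h.sU hP.it.2
  induction hf with
  | c a ha => exact Rg.c a ha
  | x =>
    refine ((Rg.x.mul (Rg.x.sub (Rg.c _ (mul_mem (ofNat_mem _ 4) h.cU.mem)))).div
      (h.rs.smul (h.εU.pow 2).mem) ((h.εU.pow 2).mul s)).congr fun z hz => ?_
    filter_upwards [h.ev hP hz] with w a
    rw [eq_div_iff (mul_ne_zero (h.εU.pow 2).ne (h.half a).2), ← h.x' a, mul_comm]
  | y =>
    refine ((((Rg.y.pow 2).add ((Rg.x.pow 2).smul h.γO)).add (h.rr.smul (ofNat_mem _ 2))).div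
      ((h.rs.pow 2).smul (h.εU.pow 3).mem) ((h.εU.pow 3).mul (s.pow 2))).congr fun z hz => ?_
    filter_upwards [h.ev hP hz] with w a
    rw [eq_div_iff (mul_ne_zero (h.εU.pow 3).ne (pow_ne_zero 2 (h.half a).2)), ← h.y' a, mul_comm]
  | add _ _ i1 i2 => exact i1.add i2
  | mul _ _ i1 i2 => exact i1.mul i2
  | inv _ hu i1 => exact i1.inv hu
  | congr _ e i1 => exact i1.congr fun z hz => e z ((h.D hP).2 hz)

end Sp

/-- decomposition along the isogeny -/
def Dec {v : Nv} (m m' : Md v) (P : ℂ) (n : ℕ) (f : ℂ → ℂ) : Prop := ∃ a b r, m'.Rg P a ∧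
  m'.Rg P b ∧ m.Rg P r ∧ m.E P f fun z => a z + m.x z * b z + 2 ^ n * r z

namespace Sp

variable {v : Nv} {m m' : Md v} {p c ε z P : ℂ} (h : Sp m m' p c ε) {f g : ℂ → ℂ} (hP : m.G P)

theorem _root_.Vale.Agent.P004C.In.Dec.congr {n : ℕ} (hf : Dec m m' P n f) (e : m.E P g f) :
    Dec m m' P n g := by
  obtain ⟨a, b, r, ha, hb, hr, e1⟩ := hf
  exact ⟨a, b, r, ha, hb, hr, fun z hz => (e z hz).trans (e1 z hz)⟩

theorem _root_.Vale.Agent.P004C.In.Dec.add {n : ℕ} (hf : Dec m m' P n f) (hg : Dec m m' P n g) :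
    Dec m m' P n fun z => f z + g z := by
  obtain ⟨a, b, r, ha, hb, hr, e1⟩ := hf
  obtain ⟨a', b', r', ha', hb', hr', e2⟩ := hg
  refine ⟨_, _, _, ha.add ha', hb.add hb', hr.add hr', fun z hz => ?_⟩
  filter_upwards [e1 z hz, e2 z hz] with w s t
  linear_combination s + t

theorem dec' {n : ℕ} (hf : m'.Rg P f) : Dec m m' P n f :=
  ⟨f, _, _, hf, Rg.c 0 (zero_mem _), Rg.c 0 (zero_mem _), E.of_eq fun z => by ring⟩

theorem dec2 {n : ℕ} (hf : m.Rg P f) : Dec m m' P n fun z => 2 ^ n * f z :=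
  ⟨_, _, f, Rg.c 0 (zero_mem _), Rg.c 0 (zero_mem _), hf, E.of_eq fun z => by ring⟩

theorem decx {n : ℕ} : Dec m m' P n m.x :=
  ⟨_, _, _, Rg.c 0 (zero_mem _), Rg.c 1 (one_mem _), Rg.c 0 (zero_mem _), E.of_eq fun z => by ring⟩

include h hP

theorem sqx : ∃ r, m.Rg P r ∧ m.E P (fun z => m.x z ^ 2) fun z => ε ^ 2 * m'.x z + 2 * r z := by
  have c4 := mul_mem (ofNat_mem _ 4) h.cU.mem
  refine ⟨_, (Rg.x.smul (mul_mem (ofNat_mem _ 2) h.cU.mem)).add (((h.pull hP Rg.x).smul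
    (mul_mem (ofNat_mem _ 2) (h.εU.pow 2).mem)).mul (Rg.x.add (Rg.c _ c4))), fun z hz => ?_⟩
  filter_upwards [h.ev hP hz] with w a
  linear_combination -h.x' a

theorem dec_mul (hf : Dec m m' P 1 f) (hg : Dec m m' P 1 g) : Dec m m' P 1 fun z => f z * g z := by
  obtain ⟨a, b, r, ha, hb, hr, e1⟩ := hf
  obtain ⟨a', b', r', ha', hb', hr', e2⟩ := hg
  obtain ⟨s, hs, e3⟩ := h.sqx hP
  have k := fun {f} (hf : m'.Rg P f) => h.pull hP hf
  refine ⟨_, _, _, (ha.mul ha').add ((Rg.x.smul (h.εU.pow 2).mem).mul (hb.mul hb')),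
    (ha.mul hb').add (ha'.mul hb), ((hs.mul ((k hb).mul (k hb'))).add (hr.mul (((k ha').add
      (Rg.x.mul (k hb'))).add (hr'.smul (ofNat_mem _ 2))))).add
        (hr'.mul ((k ha).add (Rg.x.mul (k hb)))), fun z hz => ?_⟩
  filter_upwards [e1 z hz, e2 z hz, e3 z hz] with w s t u
  rw [s, t]
  linear_combination b w * b' w * u

theorem dec_inv (hf : m.Rg P f) (hu : v.U (f P)) (hd : Dec m m' P 1 f) :
    Dec m m' P 1 fun z => (f z)⁻¹ := by
  obtain ⟨a, b, r, ha, hb, hr, e1⟩ := id hd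
  obtain ⟨s, hs, e3⟩ := h.sqx hP
  have k := fun {f} (hf : m'.Rg P f) => h.pull hP hf
  have hA := (ha.pow 2).add ((Rg.x.smul (h.εU.pow 2).mem).mul (hb.pow 2))
  have hR := ((hs.mul ((k hb).pow 2)).add (Rg.x.mul ((k ha).mul (k hb)))).add
    ((hr.smul (ofNat_mem _ 2)).mul (((k ha).add (Rg.x.mul (k hb))).add hr))
  have e : m.E P (fun z => f z ^ 2) fun z => (a z ^ 2 + ε ^ 2 * m'.x z * b z ^ 2) +
      2 * (s z * b z ^ 2 + m.x z * (a z * b z) + 2 * r z * (a z + m.x z * b z + r z)) := by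
    intro z hz
    filter_upwards [e1 z hz, e3 z hz] with w s t
    rw [s]
    linear_combination b w ^ 2 * t
  have hU : v.U (a P ^ 2 + ε ^ 2 * m'.x P * b P ^ 2) := (hu.pow 2).of_sub
    (M_eq (neg_mem (two_mul_M (hR.val hP).1)) (by linear_combination -(e P hP.D).eq_of_nhds))
  have hI := hA.inv hU
  refine ((h.dec_mul hP hd (dec' hI)).add (dec2 ((hR.mul ((hf.inv hu).mul (k hI))).neg))).congr
    fun z hz => ?_
  filter_upwards [e z hz, hf.evne hP hu hz, (k hA).evne hP hU hz] with w s t u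
  field_simp
  linear_combination -s

theorem decy : Dec m m' P 1 m.y := by
  have x2 := h.dec_mul hP decx decx
  have c4 := mul_mem (ofNat_mem _ 4) h.cU.mem
  have w := Rg.x.add (Rg.c (m := m) (P := P) _ c4)
  have y' := h.pull hP Rg.y
  have y2 : Dec m m' P 1 fun z => -m.y z ^ 2 := by
    refine (((dec' (Rg.y.smul (h.εU.pow 3).mem).neg).add (h.dec_mul hP (dec' (Rg.c _ h.γO)) x2)).add
      (dec2 (h.rr.sub (((y'.smul (mul_mem (ofNat_mem _ 4) (h.εU.pow 3).mem)).mul w).mul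
        ((Rg.c _ (one_mem _)).add (w.smul (ofNat_mem _ 2))))))).congr fun z hz => ?_
    filter_upwards [h.ev hP hz] with w a
    linear_combination h.y' a
  refine (h.dec_mul hP (h.dec_inv hP Rg.x hP.2 decx) (((h.dec_mul hP x2 decx).add
    (h.dec_mul hP (dec' (Rg.c _ m.bU.mem)) decx)).add y2)).congr fun z hz => ?_
  filter_upwards [hz.ev, Rg.x.evne hP hP.2 hz] with w a b
  rw [eq_inv_mul_iff_mul_eq₀ b]
  linear_combination m.eqn a

theorem dec1 (hf : m.Rg P f) : Dec m m' P 1 f := by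
  induction hf with
  | c a ha => exact dec' (Rg.c a ha)
  | x => exact decx
  | y => exact h.decy hP
  | add _ _ i1 i2 => exact i1.add i2
  | mul _ _ i1 i2 => exact h.dec_mul hP i1 i2
  | inv k hu i1 => exact h.dec_inv hP k hu i1
  | congr _ e i1 => exact i1.congr e

theorem dec (n : ℕ) (hf : m.Rg P f) : Dec m m' P n f := by
  induction n with
  | zero => exact (dec2 hf).congr (E.of_eq fun z => by ring)
  | succ n ih =>
    obtain ⟨a, b, r, ha, hb, hr, e1⟩ := ih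
    obtain ⟨a', b', r', ha', hb', hr', e2⟩ := h.dec1 hP hr
    have t : (2 : ℂ) ^ n ∈ v.O := pow_mem (ofNat_mem _ 2) n
    refine ⟨_, _, _, ha.add (ha'.smul t), hb.add (hb'.smul t), hr', fun z hz => ?_⟩
    filter_upwards [e1 z hz, e2 z hz] with w s t
    rw [s, t]; ring

theorem Dp (hz : m.D P z) {l : ℂ} (hl : l ∈ m'.Λ) : m.D P (z + l) :=
  (h.D hP).1 (((h.D hP).2 hz).congr (mem_of_eq hl (by ring)))

theorem step (n : ℕ) (hf : m.Rg P f) : ∃ g r, m'.Rg P g ∧ m.Rg P r ∧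
    m.E P (fun w => f w + f (w + p)) fun w => 2 * g w + 2 ^ n * (r w + r (w + p)) := by
  obtain ⟨a, b, r, ha, hb, hr, e1⟩ := h.dec hP n hf
  have t := ofNat_mem v.O 2
  refine ⟨_, r, ha.add (hb.mul ((Rg.x.smul (mul_mem t (h.εU.pow 2).mem)).add
    (Rg.c _ (mul_mem t h.cU.mem)))), hr, fun z hz => ?_⟩
  have hz' := (h.D hP).2 hz
  filter_upwards [e1 z hz, shift (e1 _ (h.Dp hP hz h.pm)), ha.per h.pm z hz', hb.per h.pm z hz']
    with w s1 s2 s3 s4
  rw [s1, s2, s3, s4]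
  linear_combination (-b w) * h.xx w

end Sp

end Vale.Agent.P004C.In
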