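import Vale.Agent.P004C.In.Twr

/-!
# P004 C, block INT: generic base points and the eigenfunction
-/

open Finset Vale.Agent.P027H Filter Topology Polynomial

namespace Vale.Agent.P004C.In

open Nv Md

theorem norm_ne {k : Type} [CommRing k] [IsDomain k] {A B : k[X]} (β : k) (h : A ≠ 0 ∨ B ≠ 0) :
    A ^ 2 - X * A * B - (X ^ 3 + C β * X) * B ^ 2 ≠ 0 := by
  intro e
  by_cases hB : B = 0
  · rw [hB] at e
    exact h.elim (fun k => k (pow_eq_zero_iff two_ne_zero |>.1 (by linear_combination e))) fun k => k hB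
  have hm : (X ^ 3 + C β * X : k[X]).Monic := by monicity!
  have hd : (X ^ 3 + C β * X : k[X]).natDegree = 3 := by compute_degree!
  have e' : A * (A - X * B) = (X ^ 3 + C β * X) * B ^ 2 := by linear_combination e
  have n0 : A * (A - X * B) ≠ 0 := e' ▸ mul_ne_zero hm.ne_zero (pow_ne_zero 2 hB)
  have d := congrArg natDegree e'
  rw [natDegree_mul (left_ne_zero_of_mul n0) (right_ne_zero_of_mul n0),
    natDegree_mul hm.ne_zero (pow_ne_zero 2 hB), hd, natDegree_pow] at d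
  have dx : (X * B).natDegree = B.natDegree + 1 := natDegree_X_mul hB
  by_cases c : (X * B).natDegree < A.natDegree
  · rw [natDegree_sub_eq_left_of_natDegree_lt c] at d
    omega
  · have := natDegree_sub_le A (X * B)
    omega

variable {v : Nv} {Λ : ℕ → Submodule ℤ ℂ} {t : ℕ → ℂ} {q P z w : ℂ} {m : Md v} {f g : ℂ → ℂ}

/-- evaluation -/
noncomputable def ev (F : v.O[X]) (z : ℂ) : ℂ := F.eval₂ v.O.subtype z

theorem ev_coe (F : v.O[X]) (c : v.O) : ev F c = (F.eval c : v.O) := eval₂_at_apply v.O.subtype c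
theorem ev_mem (F : v.O[X]) (hz : z ∈ v.O) : ev F z ∈ v.O := (ev_coe F ⟨z, hz⟩) ▸ (F.eval _).2
theorem ev_mul (F G : v.O[X]) (z : ℂ) : ev (F * G) z = ev F z * ev G z := eval₂_mul _ _
theorem ev_U {F G : v.O[X]} (hz : z ∈ v.O) (h : v.U (ev (F * G) z)) : v.U (ev F z) ∧ v.U (ev G z) := by
  rw [ev_mul] at h
  exact ⟨h.left (ev_mem F hz) (ev_mem G hz), (h.eq (mul_comm _ _)).left (ev_mem G hz) (ev_mem F hz)⟩

theorem rg_ev (F : v.O[X]) : m.Rg P fun z => ev F (m.x z) := by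
  induction F using Polynomial.induction_on' with
  | add p q hp hq => exact (hp.add hq).eq fun z => eval₂_add _ _
  | monomial n a => exact ((Rg.x.pow n).smul a.2).eq fun z => eval₂_monomial _ _

theorem Pm.monic {F : v.O[X]} (h : F.Monic) : Pm v F := (h.map _).ne_zero

theorem nf {A B : v.O[X]} (h : Pm v A ∨ Pm v B) : ∃ F, Pm v F ∧ ∀ P, m.It P →
    v.U (ev F (m.x P)) → v.U (ev A (m.x P) + m.y P * ev B (m.x P)) := by
  refine ⟨A ^ 2 - X * A * B - (X ^ 3 + C ⟨m.b, m.bU.mem⟩ * X) * B ^ 2, ?_, fun P hP hU => ?_⟩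
  · simpa [Pm] using norm_ne (Ideal.Quotient.mk v.I ⟨m.b, m.bU.mem⟩) h
  · have a := ev_mem A hP.2
    have b := ev_mem B hP.2
    refine U.left (b := ev A (m.x P) - (m.y P + m.x P) * ev B (m.x P)) (hU.eq ?_)
      (add_mem a (mul_mem hP.y b)) (sub_mem a (mul_mem (add_mem hP.y hP.2) b))
    simp only [ev, eval₂_sub, eval₂_mul, eval₂_add, eval₂_pow, eval₂_X, eval₂_C, Subring.subtype_apply]
    linear_combination (-(eval₂ v.O.subtype (m.x P) B) ^ 2) * m.eqn hP.1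

theorem Md.surj (m : Md v) (c : ℂ) : ∃ P, P ∉ m.Λ ∧ m.x P = c := by
  obtain ⟨y, hy⟩ := IsAlgClosed.exists_pow_nat_eq (4 * (m.u ^ 2 * (c + 1 / 12)) ^ 3 -
    g2 m.Λ * (m.u ^ 2 * (c + 1 / 12)) - g3 m.Λ) two_pos
  obtain ⟨z, h1, h2, -⟩ := m.lat.surj hy
  rw [m.wp_eq] at h2
  exact ⟨z, h1, add_right_cancel (mul_left_cancel₀ (pow_ne_zero 2 m.u0) h2)⟩

theorem gen1 {s : ℂ} (hs : m.It s) : ∃ F, Pm v F ∧ ∀ P, m.It P → v.U (ev F (m.x P)) →
    m.It (P - s) ∧ m.It (2 * P - s) := by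
  let a : v.O := ⟨m.x s, hs.2⟩
  let b : v.O := ⟨m.b, m.bU.mem⟩
  let y : v.O := ⟨m.y (-s), hs.neg.y⟩
  obtain ⟨F, hF, k⟩ := nf (m := m) (A := X ^ 3 - C (3 * a) * X ^ 2 + C (y - b) * X - C (b * a))
    (B := C (2 * y + a)) (Or.inl (Pm.monic (by monicity!)))
  refine ⟨(X - C a) * F, (Pm.monic (monic_X_sub_C a)).mul hF, fun P hP hU => ?_⟩
  obtain ⟨u1, u2⟩ := ev_U hP.2 hU
  have u1' : v.U (m.x P - m.x (-s)) := u1.eq (by rw [m.x_neg]; simp [ev, a])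
  have i1 : m.It (P - s) := (hP.add hs.neg u1').eq (sub_eq_add_neg _ _)
  have e := m.add' hP.1 hs.neg.1 (sub_ne_zero.1 u1'.ne)
  rw [← sub_eq_add_neg] at e
  have u3 : v.U ((m.x P - m.x (P - s)) * (m.x P - m.x (-s)) ^ 2) := by
    refine (k P hP u2).eq ?_
    simp only [ev, eval₂_sub, eval₂_mul, eval₂_add, eval₂_pow, eval₂_X, eval₂_C, map_mul, map_sub,
      map_add, map_ofNat, eval₂_ofNat, Subring.subtype_apply, a, b, y]
    rw [m.x_neg] at e ⊢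
    linear_combination -e
  exact ⟨i1, (hP.add i1 (u3.left (sub_mem hP.2 i1.2) (u1'.pow 2).mem)).eq (by ring)⟩

/-- `P` is generic for `S` -/
def Md.Ge (m : Md v) (S : Finset ℂ) (P : ℂ) : Prop :=
  m.G P ∧ ∀ s ∈ S, m.It (P - s) ∧ m.It (2 * P - s)

theorem gen (S : Finset ℂ) (hS : ∀ s ∈ S, m.It s) {F : v.O[X]} (hF : Pm v F) :
    ∃ P, m.Ge S P ∧ v.U (ev F (m.x P)) := by
  classical
  have : ∃ G, Pm v G ∧ ∀ P, m.It P → v.U (ev G (m.x P)) →
      ∀ s ∈ S, m.It (P - s) ∧ m.It (2 * P - s) := by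
    induction S using Finset.induction_on with
    | empty => exact ⟨1, Pm.monic monic_one, fun _ _ _ s hs => absurd hs (notMem_empty s)⟩
    | insert s S _ ih =>
      obtain ⟨G, hG, k⟩ := ih fun s hs => hS s (mem_insert_of_mem hs)
      obtain ⟨G', hG', k'⟩ := gen1 (hS s (mem_insert_self _ _))
      refine ⟨G * G', hG.mul hG', fun P hP hU s' hs' => ?_⟩
      rcases mem_insert.1 hs' with rfl | h
      · exact k' P hP (ev_U hP.2 hU).2
      · exact k P hP (ev_U hP.2 hU).1 s' h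
  obtain ⟨G, hG, k⟩ := this
  obtain ⟨c, hc⟩ := ((Pm.monic monic_X).mul (hF.mul hG)).ex
  obtain ⟨P, h1, h2⟩ := m.surj c
  rw [← ev_coe, ← h2] at hc
  have hP : m.It P := ⟨h1, h2 ▸ c.2⟩
  obtain ⟨u1, u2⟩ := ev_U hP.2 hc
  obtain ⟨u2, u3⟩ := ev_U hP.2 u2
  exact ⟨P, ⟨⟨h1, u1.eq (by simp [ev])⟩, k P hP u3⟩, u2⟩

/-- normal form of rational functions -/
def Md.Nf (m : Md v) (f : ℂ → ℂ) : Prop := ∃ A B Q : ℂ[X], Q ≠ 0 ∧ ∀ z, z ∉ m.Λ →
  Q.eval (m.x z) ≠ 0 → f z = (A.eval (m.x z) + m.y z * B.eval (m.x z)) / Q.eval (m.x z)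

theorem Md.Nf.add (hf : m.Nf f) (hg : m.Nf g) : m.Nf fun z => f z + g z := by
  obtain ⟨A, B, Q, h0, h⟩ := hf
  obtain ⟨A', B', Q', h0', h'⟩ := hg
  refine ⟨A * Q' + A' * Q, B * Q' + B' * Q, Q * Q', mul_ne_zero h0 h0', fun z hz k => ?_⟩
  rw [eval_mul] at k
  have k1 := left_ne_zero_of_mul k
  have k2 := right_ne_zero_of_mul k
  simp only [h z hz k1, h' z hz k2, eval_add, eval_mul]
  field_simp; ring

theorem Md.Nf.smul (c : ℂ) (hf : m.Nf f) : m.Nf fun z => c * f z := by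
  obtain ⟨A, B, Q, h0, h⟩ := hf
  refine ⟨C c * A, C c * B, Q, h0, fun z hz k => ?_⟩
  simp only [h z hz k, eval_mul, eval_C]
  ring

theorem Md.Nf.sum {κ : Type} (s : Finset κ) {F : κ → ℂ → ℂ} (hF : ∀ i ∈ s, m.Nf (F i)) :
    m.Nf fun z => ∑ i ∈ s, F i z := by
  classical
  induction s using Finset.induction_on with
  | empty => exact ⟨0, 0, 1, one_ne_zero, fun z _ _ => by simp⟩
  | insert i s hi ih =>
    simp only [sum_insert hi]
    exact (hF i (mem_insert_self _ _)).add (ih fun k hk => hF k (mem_insert_of_mem hk))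

theorem nf_tr (w : ℂ) : m.Nf fun z => m.x (z + w) := by
  by_cases hw : w ∈ m.Λ
  · exact ⟨X, 0, 1, one_ne_zero, fun z _ _ => by
      simpa using m.x_congr (mem_of_eq hw (by ring))⟩
  refine ⟨(C m.b + X * C (m.x w)) * (X + C (m.x w)) - X * C (m.y w), C (-(2 * m.y w + m.x w)),
    (X - C (m.x w)) ^ 2, pow_ne_zero 2 (X_sub_C_ne_zero _), fun z hz k => ?_⟩
  simp only [eval_add, eval_mul, eval_sub, eval_pow, eval_X, eval_C] at k ⊢
  rw [eq_div_iff k]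
  linear_combination m.add' hz hw (sub_ne_zero.1 (pow_ne_zero_iff two_ne_zero |>.1 k))

theorem lift2 (v : Nv) {A B : ℂ[X]} (h : A ≠ 0 ∨ B ≠ 0) : ∃ (c : ℂ) (A' B' : v.O[X]), c ≠ 0 ∧
    (Pm v A' ∨ Pm v B') ∧ ∀ z, A.eval z = c * ev A' z ∧ B.eval z = c * ev B' z := by
  classical
  obtain ⟨c, hc, c0, k⟩ := exists_scale v (A.coeffs ∪ B.coeffs) id (by
    rcases h with h | h
    · exact ⟨_, mem_union_left _ (coeff_mem_coeffs (leadingCoeff_ne_zero.2 h)),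
        leadingCoeff_ne_zero.2 h⟩
    · exact ⟨_, mem_union_right _ (coeff_mem_coeffs (leadingCoeff_ne_zero.2 h)),
        leadingCoeff_ne_zero.2 h⟩)
  replace c0 : c ≠ 0 := c0
  have L : ∀ D : ℂ[X], (∀ a ∈ D.coeffs, a / c ∈ v.O) → ∃ D' : v.O[X], (c ∈ D.coeffs → Pm v D') ∧
      ∀ z, D.eval z = c * ev D' z := fun D hD => by
    have : C c⁻¹ * D ∈ lifts v.O.subtype := (lifts_iff_coeff_lifts _).2 fun n => by
      by_cases e : D.coeff n = 0
      · exact ⟨0, by simp [e]⟩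
      · exact ⟨⟨_, hD _ (coeff_mem_coeffs e)⟩, by simp [div_eq_inv_mul]⟩
    obtain ⟨D', hD'⟩ := this
    have hD2 : D'.map v.O.subtype = C c⁻¹ * D := hD'
    refine ⟨D', fun hc e => ?_, fun z => ?_⟩
    · obtain ⟨n, -, hn⟩ := mem_coeffs_iff.1 hc
      have a1 := congrArg (coeff · n) hD2
      have a2 := congrArg (coeff · n) e
      simp only [coeff_map, coeff_C_mul, ← hn, coeff_zero, Ideal.Quotient.eq_zero_iff_mem] at a1 a2
      exact U.one.not_M (M_eq (mem_I.1 a2) ((inv_mul_cancel₀ c0).symm.trans a1.symm))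
    · rw [ev, eval₂_eq_eval_map, hD2, eval_mul, eval_C, mul_inv_cancel_left₀ c0]
  obtain ⟨A', a1, a2⟩ := L A fun a ha => k a (mem_union_left _ ha)
  obtain ⟨B', b1, b2⟩ := L B fun a ha => k a (mem_union_right _ ha)
  exact ⟨c, A', B', c0, (mem_union.1 hc).imp a1 b1, fun z => ⟨a2 z, b2 z⟩⟩

theorem Md.lim (m : Md v) (c : ℂ) :
    Tendsto (fun z => z ^ 2 * (m.x z - c)) (𝓝[≠] 0) (𝓝 (m.u ^ 2)⁻¹) := by
  have a : Tendsto (fun z : ℂ => z ^ 2 * (1 / 12 + c)) (𝓝[≠] 0) (𝓝 (0 ^ 2 * (1 / 12 + c))) :=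
    tendsto_nhdsWithin_of_tendsto_nhds (Continuous.tendsto (by fun_prop) 0)
  have := (m.lat.tendsto_wp.const_mul (m.u ^ 2)⁻¹).sub a
  simp only [mul_one, ne_eq, OfNat.ofNat_ne_zero, not_false_eq_true, zero_pow, zero_mul,
    sub_zero] at this
  refine this.congr fun z => ?_
  have := m.u0
  rw [m.wp_eq]; field_simp; ring

theorem Md.Nf.unit (hf : m.Nf f) {a : ℂ} (a0 : a ≠ 0)
    (hl : Tendsto (fun z => z ^ 2 * f z) (𝓝[≠] 0) (𝓝 a)) : ∃ (c : ℂ) (F : v.O[X]), Pm v F ∧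
    ∀ P, m.G P → v.U (ev F (m.x P)) → m.Rg P (fun z => c * f z) ∧ v.U (c * f P) := by
  classical
  obtain ⟨A, B, Q, h0, h⟩ := hf
  have nz : A ≠ 0 ∨ B ≠ 0 := by
    by_contra! k
    have e1 : ∀ᶠ z in 𝓝[≠] (0 : ℂ), ∀ ρ ∈ Q.roots.toFinset, m.x z ≠ ρ :=
      (eventually_all_finset _).2 fun ρ _ => ((m.lim ρ).eventually_ne
        (inv_ne_zero (pow_ne_zero 2 m.u0))).mono fun z hz e => hz (by rw [e]; ring)
    refine a0 (tendsto_nhds_unique hl (tendsto_const_nhds.congr' ?_))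
    filter_upwards [e1, m.lat.notMem_zero] with z k1 k2
    rw [h z k2 fun e => k1 _ (Multiset.mem_toFinset.2 ((mem_roots h0).2 e)) rfl, k.1, k.2]
    simp
  obtain ⟨c, A', B', c0, p, e⟩ := lift2 v nz
  obtain ⟨d, Q', Q2, d0, p', e'⟩ := lift2 v (B := 0) (Or.inl h0)
  obtain ⟨F, hF, k⟩ := nf (m := m) p
  obtain ⟨F', hF', k'⟩ := nf (m := m) p'
  refine ⟨d / c, F * F', hF.mul hF', fun P hP hU => ?_⟩
  obtain ⟨u1, u2⟩ := ev_U hP.it.2 hU
  have r1 : m.Rg P fun z => ev A' (m.x z) + m.y z * ev B' (m.x z) :=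
    (rg_ev A').add (Rg.y.mul (rg_ev B'))
  have q0 : ∀ z, ev Q2 z = 0 := fun z => by
    have := (e' z).2
    rw [eval_zero] at this
    exact (mul_eq_zero.1 this.symm).resolve_left d0
  have u3 : v.U (ev Q' (m.x P)) := (k' P hP.it u2).eq (by rw [q0]; ring)
  have E : m.E P (fun z => d / c * f z)
      fun z => (ev A' (m.x z) + m.y z * ev B' (m.x z)) / ev Q' (m.x z) := fun z hz => by
    filter_upwards [hz.ev, (rg_ev Q').evne hP u3 hz] with w a b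
    rw [h w a (by rw [(e' _).1]; exact mul_ne_zero d0 b), (e _).1, (e _).2, (e' _).1]
    field_simp
  refine ⟨(r1.div (rg_ev Q') u3).congr E, ?_⟩
  rw [(E P hP.D).eq_of_nhds, div_eq_mul_inv]
  exact (k P hP.it u1).mul u3.inv

theorem Tw.eig (T : Tw v.V Λ t q) (h1 : m.Λ = Λ 0) (a : ℕ) {ζ : ℂ} (hζ : ζ ^ 2 ^ a = 1) :
    ∃ (W : ℂ → ℂ) (F : v.O[X]), Pm v F ∧ (∀ z, W (z + t a) = ζ * W z) ∧
      (∀ z, ∀ l ∈ m.Λ, W (z + l) = W z) ∧
      ∀ P, m.G P → v.U (ev F (m.x P)) → m.Rg P W ∧ v.U (W P) := by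
  have z0 : ζ ≠ 0 := by
    rintro rfl
    rw [zero_pow (pow_ne_zero a two_ne_zero)] at hζ
    exact zero_ne_one hζ
  have N : m.Nf fun z => ∑ j ∈ range (2 ^ a), ζ⁻¹ ^ j * m.x (z + j * t a) :=
    Nf.sum _ fun j _ => (nf_tr _).smul _
  have L : Tendsto (fun z => z ^ 2 * ∑ j ∈ range (2 ^ a), ζ⁻¹ ^ j * m.x (z + j * t a)) (𝓝[≠] 0)
      (𝓝 (∑ j ∈ range (2 ^ a), if j = 0 then (m.u ^ 2)⁻¹ else 0)) := by
    simp only [mul_sum]
    refine tendsto_finsetSum _ fun j hj => ?_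
    split_ifs with e
    · simpa [e] using m.lim 0
    · have c : ContinuousAt m.x (0 + j * t a) := by
        rw [zero_add]
        exact (m.ax (h1 ▸ T.nz e (mem_range.1 hj))).continuousAt
      have c' : ContinuousAt (fun z => z ^ 2 * (ζ⁻¹ ^ j * m.x (z + j * t a))) 0 :=
        (continuousAt_id.pow 2).mul (continuousAt_const.mul
          (ContinuousAt.comp (f := fun z => z + j * t a) c (by fun_prop)))
      have := tendsto_nhdsWithin_of_tendsto_nhds (s := {0}ᶜ) c'.tendsto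
      simpa using this
  rw [sum_ite_eq', if_pos (mem_range.2 (by positivity))] at L
  obtain ⟨c, F, hF, k⟩ := N.unit (inv_ne_zero (pow_ne_zero 2 m.u0)) L
  refine ⟨_, F, hF, fun z => ?_, fun z l hl => ?_, k⟩
  · have s1 := sum_range_succ (fun j => ζ⁻¹ ^ j * m.x (z + j * t a)) (2 ^ a)
    have s2 := sum_range_succ' (fun j => ζ⁻¹ ^ j * m.x (z + j * t a)) (2 ^ a)
    rw [s2, inv_pow ζ (2 ^ a), hζ, m.x_congr (z := z + (2 ^ a : ℕ) * t a) (w := z + (0 : ℕ) * t a)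
      (h1 ▸ mem_of_eq (T.pw0 a) (by push_cast; ring)), pow_zero, inv_one, add_left_inj] at s1
    rw [mul_left_comm, ← s1, mul_sum, mul_sum, mul_sum]
    refine sum_congr rfl fun j _ => ?_
    rw [show z + t a + j * t a = z + ((j + 1 : ℕ) : ℂ) * t a by push_cast; ring, pow_succ]
    field_simp
  · exact congrArg _ (sum_congr rfl fun j _ => congrArg _ (m.x_congr (mem_of_eq hl (by ring))))

end Vale.Agent.P004C.In
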