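import Vale.Agent.P004C.In.Gen
import Vale.Agent.P027H.Prod

/-!
# P004 C, block INT: the functions with simple poles are integral
-/

open Finset Vale.Agent.P027H Filter Topology Polynomial

namespace Vale.Agent.P004C.In

open Nv Md

variable {v : Nv} {Λ : ℕ → Submodule ℤ ℂ} {t : ℕ → ℂ} {q P z w y : ℂ} {m : Md v} {f g ξ : ℂ → ℂ}
  {M : Submodule ℤ ℂ} {κ : Type} [Fintype κ] {r : κ → ℂ}

theorem lat_count {Λ : Submodule ℤ ℂ} (h : IsLat Λ) (c : ℂ) : {z | z + c ∈ Λ}.Countable := by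
  obtain ⟨L, rfl⟩ := h
  have : Countable L.lattice := L.latticeEquivProd.injective.countable
  exact (Set.countable_range fun l : L.lattice => (l : ℂ) - c).mono fun z hz =>
    Set.mem_range.2 ⟨⟨z + c, hz⟩, by simp⟩

/-- good functions at the origin -/
def Md.Gd (m : Md v) (f : ℂ → ℂ) : Prop := ∃ S : Finset ℂ, (∀ s ∈ S, m.It s) ∧
  ∀ P, m.Ge S P → m.Rg P fun z => f (z - P)

theorem Md.Gd.der (h : m.Gd f) : m.Gd fun z => deriv f z / m.u := by
  obtain ⟨S, h1, h2⟩ := h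
  exact ⟨S, h1, fun P hP => ((h2 P hP).der hP.1).eq fun z => by rw [deriv_comp_sub_const]⟩

theorem Md.Ge.mono {S S' : Finset ℂ} (h : m.Ge S P) (e : S' ⊆ S) : m.Ge S' P :=
  ⟨h.1, fun s hs => h.2 s (e hs)⟩

theorem Md.Ge.U {S : Finset ℂ} (h : m.Ge S P) {s : ℂ} (hs : s ∈ S) (k : m.It s) :
    m.It (s - P) ∧ v.U (m.x P - m.x (s - P)) := by
  have a : m.It (s - P) := (h.2 s hs).1.neg.eq (by ring)
  exact ⟨a, h.1.it.crit a (k.eq (by ring)) ((h.2 s hs).2.eq (by ring))⟩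

theorem gd_x (h : m.It w) : m.Gd fun z => m.x (z + w) := by
  refine ⟨{w}, by simpa using h, fun P hP => ?_⟩
  obtain ⟨a, b⟩ := hP.U (mem_singleton_self w) h
  exact (rg_tr hP.1 a b).eq fun z => congrArg m.x (by ring)

theorem gen' (S : Finset ℂ) (hS : ∀ s ∈ S, s ∈ m.Λ ∨ m.It s) : ∃ P, m.G P ∧ ∀ s ∈ S,
    m.It (P - s) ∧ (m.It s → m.It (2 * P - s)) := by
  classical
  obtain ⟨P, hP, -⟩ := gen (m := m) (S.filter m.It) (fun s hs => (mem_filter.1 hs).2)
    (Pm.monic monic_one)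
  refine ⟨P, hP.1, fun s hs => ⟨(hS s hs).elim (fun k => hP.1.it.congr ?_)
    fun k => (hP.2 s (mem_filter.2 ⟨hs, k⟩)).1, fun k => (hP.2 s (mem_filter.2 ⟨hs, k⟩)).2⟩⟩
  exact mem_of_eq (neg_mem k) (by ring)

/-- the hypotheses on the character -/
structure Kh (m : Md v) (M : Submodule ℤ ℂ) (r : κ → ℂ) (ξ f : ℂ → ℂ) : Prop where
  kr : Kr m.Λ M r ξ f
  it : ∀ s ∈ M, s ∈ m.Λ ∨ m.It s
  un : ∀ s ∈ M, v.U (ξ s)
  ex : ∃ s ∈ M, v.U (ξ s - 1)

namespace Kh

variable (K : Kh m M r ξ f)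
include K

theorem sum0 : ∑ i, ξ (r i) = 0 := by
  obtain ⟨s, hs, hu⟩ := K.ex
  have R := K.kr.reps
  obtain ⟨e, he⟩ := R.perm (r' := fun i => s + r i) (fun i => add_mem hs (R.mem i))
    fun i k h => R.inj i k (mem_of_eq h (by ring))
  have : ∑ i, ξ s * ξ (r i) = ∑ i, ξ (r i) := by
    rw [← e.sum_comp fun i => ξ (r i)]
    refine sum_congr rfl fun i _ => ?_
    rw [← K.kr.mul s hs _ (R.mem i), show s + r i = (s + r i - r (e i)) + r (e i) by ring,
      K.kr.mul _ (R.le (he i)) _ (R.mem _), K.kr.one _ (he i), one_mul]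
  rw [← mul_sum] at this
  exact (mul_eq_zero.1 (by linear_combination this : (ξ s - 1) * _ = 0)).resolve_left hu.ne

theorem nm {W : ℂ} (h : ∀ i, m.x z ≠ m.x (r i - W)) : z - W ∉ M := fun e => by
  obtain ⟨i, hi⟩ := K.kr.reps.ex _ (neg_mem e)
  exact h i (by rw [← m.x_neg z]; exact m.x_congr (mem_of_eq hi (by ring)))

theorem cst {W : ℂ} (hW : ∀ i, r i - W ∉ m.Λ) : ∃ C, ∀ z, z ∉ m.Λ → (∀ i, m.x z ≠ m.x (r i - W)) →
    f (z - W) / m.u = ∑ i, ξ (r i) * m.sl z (r i - W) + C := by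
  let Z : Set ℂ := {z | z ∉ m.Λ ∧ ∀ i, m.x z ≠ m.x (r i - W)}
  have o : IsOpen Z := isOpen_iff_mem_nhds.2 fun z hz => (m.lat.notMem_nhds hz.1).and
    (eventually_all.2 fun i => (m.ax hz.1).continuousAt.eventually_ne (hz.2 i))
  have c : Zᶜ.Countable := by
    refine ((lat_count m.lat 0).union (Set.countable_iUnion fun i =>
      (lat_count m.lat (-(r i - W))).union (lat_count m.lat (r i - W)))).mono fun z hz => ?_
    by_contra k
    simp only [Set.mem_union, Set.mem_ofPred_eq, Set.mem_iUnion, not_or, not_exists, add_zero] at k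
    exact hz ⟨k.1, fun i => m.x_ne k.1 (hW i) (by rw [sub_eq_add_neg]; exact (k.2 i).1) (k.2 i).2⟩
  have p : IsPreconnected Z := by
    have := (c.isConnected_compl_of_one_lt_rank (by simp)).isPreconnected
    rwa [compl_compl] at this
  have d : ∀ z ∈ Z, HasDerivAt (fun z => f (z - W) / m.u - ∑ i, ξ (r i) * m.sl z (r i - W)) 0 z :=
    fun z hz => by
    refine ((((K.kr.der _ (K.nm hz.2)).comp_sub_const z W).div_const m.u).fun_sub
      (HasDerivAt.fun_sum fun i (_ : i ∈ univ) =>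
        (m.dsl hz.1 (hW i) (hz.2 i)).const_mul (ξ (r i)))).congr_deriv ?_
    have := m.u0
    rw [← sum_neg_distrib, sum_div, ← sum_sub_distrib,
      sum_congr rfl (g := fun i => -(m.u * (m.x z + 1 / 12)) * ξ (r i)) fun i _ => by
        rw [m.wp_eq, show z - W + r i = z + (r i - W) by ring]; field_simp; ring,
      ← mul_sum, K.sum0, mul_zero]
  obtain ⟨C, hC⟩ := o.exists_is_const_of_deriv_eq_zero p
    (fun z hz => (d z hz).differentiableAt.differentiableWithinAt) fun z hz => (d z hz).deriv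
  exact ⟨C, fun z h1 h2 => by linear_combination hC z ⟨h1, h2⟩⟩

theorem slO {W : ℂ} (hz : m.It z) (h1 : ∀ i, m.It (r i - W)) (h2 : ∀ i, m.It (z + (r i - W)))
    (h3 : ∀ i, m.It (z - (r i - W))) : (∀ i, m.x z ≠ m.x (r i - W)) ∧
      ∑ i, ξ (r i) * m.sl z (r i - W) ∈ v.O :=
  have u := fun i => hz.crit (h1 i) (h2 i) (h3 i)
  ⟨fun i => sub_ne_zero.1 (u i).ne,
    sum_mem fun i _ => mul_mem (K.un _ (K.kr.reps.mem i)).mem (hz.sl (h1 i) (u i))⟩

theorem val (h : ∀ s ∈ M, m.It (z + s)) : f z / m.u ∈ v.O := by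
  classical
  obtain ⟨s, hs, hu⟩ := K.ex
  have R := K.kr.reps.mem
  have n : ∀ s ∈ M, m.It (s - z) := fun s hs => (h _ (neg_mem hs)).neg.eq (by ring)
  obtain ⟨W, hW, k⟩ := gen' (m := m) (univ.image r ∪ (univ.image fun i => r i - z) ∪
    (univ.image fun i => r i - s - z) ∪ {0 - z, -s - z}) (by
      simp only [mem_union, mem_image, mem_univ, true_and, mem_insert, mem_singleton]
      rintro _ (((⟨i, rfl⟩ | ⟨i, rfl⟩) | ⟨i, rfl⟩) | rfl | rfl)
      exacts [K.it _ (R i), Or.inr (n _ (R i)), Or.inr (n _ (sub_mem (R i) hs)),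
        Or.inr (n _ (zero_mem _)), Or.inr (n _ (neg_mem hs))])
  have k1 : ∀ i, m.It (r i - W) := fun i => (k (r i) (by simp)).1.neg.eq (by ring)
  have a1 : m.It (z + W) := (k (0 - z) (by simp)).1.eq (by ring)
  have a2 : m.It (z + s + W) := (k (-s - z) (by simp)).1.eq (by ring)
  obtain ⟨b1, c1⟩ := K.slO a1 k1 (fun i => (h _ (R i)).eq (by ring))
    fun i => ((k (r i - z) (by simp)).2 (n _ (R i))).eq (by ring)
  obtain ⟨b2, c2⟩ := K.slO a2 k1 (fun i => (h _ (add_mem hs (R i))).eq (by ring))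
    fun i => ((k (r i - s - z) (by simp)).2 (n _ (sub_mem (R i) hs))).eq (by ring)
  obtain ⟨C, hC⟩ := K.cst fun i => (k1 i).1
  have e1 := hC _ a1.1 b1
  have e2 := hC _ a2.1 b2
  have z0 := K.nm b1
  rw [add_sub_cancel_right] at e1 e2 z0
  have e3 := K.kr.eig z z0 s hs
  have : C ∈ v.O := O_of_mul (O_eq (sub_mem c1 (mul_mem (K.un s hs).mem c2))
    (by linear_combination e1 - ξ s * e2 + e3 / m.u)) hu
  exact e1 ▸ add_mem c1 this

theorem gd (h : ∀ s ∈ M, m.It (y + s)) : m.Gd fun z => f (y + z) / m.u := by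
  classical
  have R := K.kr.reps.mem
  refine ⟨univ.image fun i => y + r i, by simpa using fun i => h _ (R i), fun P hP => ?_⟩
  have k : ∀ i, m.It (r i - (P - y)) ∧ v.U (m.x P - m.x (r i - (P - y))) := fun i => by
    rw [show r i - (P - y) = y + r i - P by ring]
    exact hP.U (by simp) (h _ (R i))
  obtain ⟨C, hC⟩ := K.cst fun i => (k i).1.1
  have g : m.Rg P fun z => ∑ i, ξ (r i) * m.sl z (r i - (P - y)) :=
    Rg.sum _ fun i _ => (rg_sl (k i).1 (k i).2).smul (K.un _ (R i)).mem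
  have e := hC P hP.1.1 fun i => sub_ne_zero.1 (k i).2.ne
  rw [sub_sub_cancel] at e
  have : C ∈ v.O := O_eq (sub_mem (K.val h) (g.val hP.1).1) (by linear_combination -e)
  refine (g.add (Rg.c C this)).congr fun z hz => ?_
  filter_upwards [hz.ev, eventually_all.2 fun i => ev_sl hP.1 (k i).1 (k i).2 hz] with w a b
  rw [← hC w a fun i => (b i).2, show y + (w - P) = w - (P - y) by ring]

theorem gdn (h : ∀ s ∈ M, m.It (y + s)) (n : ℕ) :
    m.Gd fun z => iteratedDeriv n f (y + z) / m.u ^ (n + 1) := by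
  induction n with
  | zero => simpa using K.gd h
  | succ n ih =>
    convert ih.der using 2 with z
    rw [deriv_div_const, deriv_comp_const_add, iteratedDeriv_succ, div_div, ← pow_succ]

theorem pole : ∃ S : Finset ℂ, (∀ s ∈ S, m.It s) ∧ ∀ P, m.Ge S P → ∃ g, m.Rg P g ∧
    ∀ z, m.D P z → z - P ∉ m.Λ → m.x z ≠ m.x P ∧
      f (z - P) / m.u = (m.y z + m.y P + m.x P) / (m.x z - m.x P) + g z := by
  classical
  have R := K.kr.reps
  obtain ⟨i0, h0⟩ := R.ex 0 (zero_mem _)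
  rw [zero_sub, neg_mem_iff] at h0
  have it : ∀ i, i ≠ i0 → m.It (r i) := fun i hi => (K.it _ (R.mem i)).resolve_left
    fun e => hi (R.inj _ _ (sub_mem e h0))
  refine ⟨(univ.erase i0).image r, by simpa using fun i hi => it i hi, fun P hP => ?_⟩
  have k : ∀ i, i ≠ i0 → m.It (r i - P) ∧ v.U (m.x P - m.x (r i - P)) := fun i hi =>
    hP.U (mem_image_of_mem _ (by simpa using hi)) (it i hi)
  have e0 : r i0 - P - -P ∈ m.Λ := mem_of_eq h0 (by ring)
  have k1 : ∀ i, m.It (r i - P) := fun i => by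
    by_cases hi : i = i0
    · exact hi ▸ hP.1.it.neg.congr e0
    · exact (k i hi).1
  obtain ⟨C, hC⟩ := K.cst fun i => (k1 i).1
  have hc : C ∈ v.O := by
    obtain ⟨W, hW, k'⟩ := gen' (m := m) ((univ.image fun i => r i - P) ∪
      (univ.image fun i => -(r i - P))) (by
        simp only [mem_union, mem_image, mem_univ, true_and]
        rintro _ (⟨i, rfl⟩ | ⟨i, rfl⟩)
        exacts [Or.inr (k1 i), Or.inr (k1 i).neg])
    have a : ∀ i, m.It (W + (r i - P)) := fun i => (k' (-(r i - P))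
      (mem_union_right _ (mem_image_of_mem _ (mem_univ i)))).1.eq (by ring)
    obtain ⟨b1, c1⟩ := K.slO hW.it k1 a
      fun i => (k' _ (mem_union_left _ (mem_image_of_mem _ (mem_univ i)))).1
    refine O_eq (sub_mem (K.val (z := W - P) fun s hs => ?_) c1)
      (by linear_combination -hC W hW.1 b1)
    obtain ⟨i, hi⟩ := R.ex s hs
    exact (a i).congr (mem_of_eq hi (by ring))
  have g : m.Rg P fun z => ∑ i ∈ univ.erase i0, ξ (r i) * m.sl z (r i - P) :=
    Rg.sum _ fun i hi => (rg_sl (k1 i) (k i (ne_of_mem_erase hi)).2).smul (K.un _ (R.mem i)).mem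
  refine ⟨_, g.add (Rg.c C hc), fun z hz h1 => ?_⟩
  have n : m.x z ≠ m.x P := m.x_ne hz.1 hP.1.1 h1 fun e => hP.1.eta.not_M (by
    have := hz.2.2
    rw [m.y_congr (w := -P) (mem_of_eq e (by ring)), m.y_neg] at this
    exact M_eq (neg_mem this) (by ring))
  have x0 : m.x (r i0 - P) = m.x P := by rw [m.x_congr e0, m.x_neg]
  refine ⟨n, ?_⟩
  rw [hC z hz.1 fun i => ?_, ← add_sum_erase _ _ (mem_univ i0), K.kr.one _ h0, Md.sl, x0,
    m.y_congr e0, m.y_neg]
  · ring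
  · by_cases hi : i = i0
    · rw [hi, x0]; exact n
    · exact (ev_sl hP.1 (k1 i) (k i hi).2 hz).self_of_nhds.2

end Kh

end Vale.Agent.P004C.In
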