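import Vale.Agent.P004C.In.St

/-!
# P004 C, block INT: existence of the functions with simple poles
-/

open Finset Vale.Agent.P027H Filter Topology

namespace Vale.Agent.P004C.In

namespace Kx

variable {Λ M : Submodule ℤ ℂ} {κ : Type} [Fintype κ] {r : κ → ℂ} {ξ : ℂ → ℂ} {d : ℂ} {p : ℕ}

theorem shift (R : Reps r Λ M) {Φ : ℂ → ℂ} (h : ∀ m ∈ M, ∀ m', m - m' ∈ Λ → Φ m = Φ m') {m : ℂ}
    (hm : m ∈ M) : ∑ i, Φ (r i + m) = ∑ i, Φ (r i) := by
  choose σ hσ using fun i => R.ex _ (add_mem (R.mem i) hm)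
  have hi : Function.Injective σ := fun i k e =>
    R.inj _ _ (mem_of_eq (sub_mem (hσ i) (hσ k)) (by rw [e]; ring))
  exact Fintype.sum_bijective σ (Finite.injective_iff_bijective.1 hi) _ _
    fun i => h _ (add_mem (R.mem i) hm) _ (hσ i)

/-- second differences -/
noncomputable def T (ξ : ℂ → ℂ) (d : ℂ) (p n : ℕ) (m z : ℂ) : ℂ :=
  ∑ s ∈ range p, ∑ s' ∈ range p, ξ (m + (s + s') * d) / (z + m + (s + s') * d) ^ (n + 1)

theorem um (hd : d ∈ M) (s s' : ℕ) : ((s : ℂ) + s') * d ∈ M :=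
  mem_of_eq (add_mem (nat_mul_mem s hd) (nat_mul_mem s' hd)) (by ring)

theorem der (hd : d ∈ M) (n : ℕ) {m z : ℂ} (hm : m ∈ M) (hz : z ∉ M) :
    HasDerivAt (T ξ d p n m) (-(n + 1) * T ξ d p (n + 1) m z) z := by
  unfold T
  simp only [mul_sum]
  refine HasDerivAt.fun_sum fun s _ => HasDerivAt.fun_sum fun s' _ => ?_
  have h0 : z + m + (s + s') * d ≠ 0 := fun e =>
    hz (mem_of_eq (neg_mem (add_mem hm (um hd s s'))) (by linear_combination e))
  refine ((hasDerivAt_const z _).fun_div ((((hasDerivAt_id' z).add_const m).add_const _).fun_pow (n + 1))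
    (pow_ne_zero _ h0)).congr_deriv ?_
  simp only [Nat.add_sub_cancel]
  push_cast
  field_simp
  ring

variable (mul : ∀ m ∈ M, ∀ m' ∈ M, ξ (m + m') = ξ m * ξ m') (hd : d ∈ M)
  (h0 : ∑ s ∈ range p, ξ (s * d) = 0)
include mul hd h0

theorem zero {m : ℂ} (hm : m ∈ M) (A B : ℂ) :
    ∑ s ∈ range p, ∑ s' ∈ range p, ξ (m + (s + s') * d) * (A + B * ((s + s') * d)) = 0 := by
  have e : ∀ s s' : ℕ, ξ (m + (s + s') * d) * (A + B * ((s + s') * d)) =
      ξ m * (ξ (s * d) * (A + B * (s * d))) * ξ (s' * d) + ξ (s * d) * (ξ m * ξ (s' * d) * (B * (s' * d))) :=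
    fun s s' => by
      rw [mul _ hm _ (um hd s s'), add_mul (s : ℂ), mul _ (nat_mul_mem s hd) _ (nat_mul_mem s' hd)]; ring
  simp only [e, sum_add_distrib, ← mul_sum, ← sum_mul, h0, mul_zero, zero_mul, add_zero,
    sum_const_zero]

theorem bound {C : ℝ} (hC : ∀ m ∈ M, ‖ξ m‖ ≤ C) {ρ : ℝ} (hρ : 0 < ρ) {x m : ℂ} (hx : ‖x‖ < ρ)
    (hm : m ∈ M) (h : 2 * (ρ + 2 * p * ‖d‖) ≤ ‖m‖) :
    ‖T ξ d p 0 m x‖ ≤ p * (p * (C * (2 * p * ‖d‖) ^ 2 * 8)) * ‖m‖ ^ (-3 : ℝ) := by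
  have d0 : 0 ≤ 2 * p * ‖d‖ := by positivity
  have m0 : 0 < ‖m‖ := by linarith
  have C0 : 0 ≤ C := (norm_nonneg _).trans (hC 0 (zero_mem _))
  have k : ∀ u : ℂ, ‖u‖ ≤ 2 * p * ‖d‖ → ‖m‖ / 2 ≤ ‖x + m + u‖ := fun u hu => by
    have := norm_add_le (x + m + u) (-(x + u))
    rw [norm_neg, show x + m + u + -(x + u) = m by ring] at this
    linarith [norm_add_le x u]
  have k0 := k 0 (by simpa using d0)
  rw [add_zero] at k0
  have w0 : x + m ≠ 0 := norm_pos_iff.1 (by linarith)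
  have ku : ∀ s ∈ range p, ∀ s' ∈ range p, ‖((s : ℂ) + s') * d‖ ≤ 2 * p * ‖d‖ := fun s hs s' hs' => by
    rw [norm_mul, ← Nat.cast_add, Complex.norm_natCast]
    gcongr
    exact_mod_cast (by have := mem_range.1 hs; have := mem_range.1 hs'; omega)
  rw [T, ← sub_zero (∑ s ∈ range p, _), ← zero mul hd h0 hm (x + m)⁻¹ (-((x + m) ^ 2)⁻¹),
    ← sum_sub_distrib, mul_assoc, mul_assoc]
  refine (norm_sum_le _ _).trans ((sum_le_card_nsmul _ _ _ fun s hs => ?_).trans (by simp; rfl))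
  rw [← sum_sub_distrib]
  refine (norm_sum_le _ _).trans ((sum_le_card_nsmul _ _ _ fun s' hs' => ?_).trans (by simp; rfl))
  have k1 := k _ (ku s hs s' hs')
  have k2 := ku s hs s' hs'
  have k3 := hC _ (add_mem hm (um hd s s'))
  generalize ((s : ℂ) + s') * d = u at *
  have w1 : x + m + u ≠ 0 := norm_pos_iff.1 (by linarith)
  have e : ξ (m + u) / (x + m + u) ^ (0 + 1) - ξ (m + u) * ((x + m)⁻¹ + -((x + m) ^ 2)⁻¹ * u) =
      ξ (m + u) * u ^ 2 / ((x + m) ^ 2 * (x + m + u)) := by field_simp; ring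
  rw [e, norm_div, norm_mul, norm_mul, norm_pow, norm_pow]
  calc _ ≤ C * (2 * p * ‖d‖) ^ 2 / ((‖m‖ / 2) ^ 2 * (‖m‖ / 2)) := by gcongr
    _ = _ := by field_simp; ring

end Kx

open Kx

theorem krx : KRX := by
  intro Λ M κ _ r ξ hΛ hM R mul one d p hd hp h0
  have cg : ∀ m ∈ M, ∀ m', m - m' ∈ Λ → ξ m = ξ m' := fun m hm m' h => by
    have := mul m' (mem_of_eq (sub_mem hm (R.le h)) (by ring)) _ (R.le h)
    rwa [one _ h, mul_one, add_sub_cancel] at this
  have hC : ∀ m ∈ M, ‖ξ m‖ ≤ ∑ i, ‖ξ (r i)‖ := fun m hm => by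
    obtain ⟨i, hi⟩ := R.ex m hm
    rw [cg m hm _ hi]
    exact single_le_sum (f := fun i => ‖ξ (r i)‖) (fun _ _ => norm_nonneg _) (mem_univ i)
  have p0 : (p : ℂ) ≠ 0 := by exact_mod_cast hp.ne'
  obtain ⟨L, rfl⟩ := hM
  have S := L.hasSumLocallyUniformly_aux (fun m z => ((p : ℂ) ^ 2)⁻¹ * T ξ d p 0 m z)
    (fun _ m => ‖((p : ℂ) ^ 2)⁻¹‖ * (p * (p * ((∑ i, ‖ξ (r i)‖) * (2 * p * ‖d‖) ^ 2 * 8)) * ‖m‖ ^ (-3 : ℝ)))
    (fun _ _ => ((ZLattice.summable_norm_rpow _ _ (by simp; norm_num)).mul_left _).mul_left _)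
    fun ρ hρ => eventually_atTop.2 ⟨2 * (ρ + 2 * p * ‖d‖), by
      rintro _ h x hx l rfl
      rw [norm_mul]
      exact mul_le_mul_of_nonneg_left (bound mul hd h0 hC hρ hx l.2 h) (norm_nonneg _)⟩
  set f := fun z => ∑' m : L.lattice, ((p : ℂ) ^ 2)⁻¹ * T ξ d p 0 m z with hf
  have op : IsOpen (L.lattice : Set ℂ)ᶜ := L.isClosed_lattice.isOpen_compl
  have D : ∀ (n : ℕ) (s : Finset L.lattice) (z : ℂ), z ∉ L.lattice → HasDerivAt
      (fun z => ∑ m ∈ s, ((p : ℂ) ^ 2)⁻¹ * ((-1) ^ n * n.factorial * T ξ d p n m z))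
      (∑ m ∈ s, ((p : ℂ) ^ 2)⁻¹ * ((-1) ^ (n + 1) * (n + 1).factorial * T ξ d p (n + 1) m z)) z :=
    fun n s z hz => HasDerivAt.fun_sum fun m _ =>
      (((der hd n m.2 hz).const_mul _).const_mul _).congr_deriv (by
        rw [Nat.factorial_succ]; push_cast; ring)
  have I : ∀ n : ℕ, TendstoLocallyUniformlyOn (fun (s : Finset L.lattice) z =>
      ∑ m ∈ s, ((p : ℂ) ^ 2)⁻¹ * ((-1) ^ n * n.factorial * T ξ d p n m z)) (iteratedDeriv n f) atTop
      (L.lattice : Set ℂ)ᶜ := fun n => by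
    induction n with
    | zero => simpa using S.tendstoLocallyUniformlyOn
    | succ n ih =>
      rw [iteratedDeriv_succ]
      exact (ih.deriv (.of_forall fun s z hz => (D n s z hz).differentiableAt.differentiableWithinAt)
        op).congr fun s z hz => (D n s z hz).deriv
  have H : ∀ z ∉ L.lattice, ∀ n : ℕ, HasSum (fun m : L.lattice => T ξ d p n m z)
      ((p : ℂ) ^ 2 * ((-1) ^ n / n.factorial * iteratedDeriv n f z)) := fun z hz n => by
    have : HasSum (fun m : L.lattice => ((p : ℂ) ^ 2)⁻¹ * ((-1) ^ n * n.factorial * T ξ d p n m z)) _ :=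
      (I n).tendsto_at hz
    refine ((this.mul_left ((-1 : ℂ) ^ n / n.factorial)).mul_left ((p : ℂ) ^ 2)).congr_fun fun m => ?_
    have : (n.factorial : ℂ) ≠ 0 := by exact_mod_cast n.factorial_ne_zero
    field_simp
    rw [← pow_mul, mul_comm n 2, pow_mul]; simp
  refine ⟨f, ⟨⟨L, rfl⟩, R, mul, one, fun z hz => ?_, fun z hz m hm => ?_⟩, H⟩
  · have d0 := ((I 0).differentiableOn (.of_forall fun s z hz =>
      (D 0 s z hz).differentiableAt.differentiableWithinAt) op).differentiableAt (op.mem_nhds hz)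
    refine d0.hasDerivAt.congr_deriv ?_
    have h2 := (R.equiv.hasSum_iff.2 (H z hz 1)).prod_fiberwise (g := fun i => ∑ s ∈ range p,
        ∑ s' ∈ range p, ξ (r i + (s + s') * d) * wp Λ (z + (r i + (s + s') * d))) fun i => by
      obtain ⟨L0, rfl⟩ := hΛ
      refine (hasSum_sum fun (s : ℕ) _ => hasSum_sum fun (s' : ℕ) _ => ((Equiv.neg _).hasSum_iff.2
        (L0.hasSum_weierstrassP (z + (r i + (s + s') * d)))).mul_left _).congr_fun fun l => ?_
      show T ξ d p 1 (r i + l) z = _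
      rw [T, ← sub_zero (∑ s ∈ range p, _), ← zero mul hd h0 (R.mem i) (1 / (l : ℂ) ^ 2) 0,
        ← sum_sub_distrib]
      refine sum_congr rfl fun s _ => ?_
      rw [← sum_sub_distrib]
      refine sum_congr rfl fun s' _ => ?_
      rw [cg _ (add_mem (add_mem (R.mem i) (R.le l.2)) (um hd s s')) (r i + (s + s') * d)
        (mem_of_eq l.2 (by ring))]
      simp only [Function.comp, Equiv.neg_apply, NegMemClass.coe_neg]
      ring
    have h3 := h2.unique (hasSum_fintype _)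
    rw [sum_comm, sum_congr rfl fun s _ => sum_comm, sum_congr rfl fun s _ => sum_congr rfl fun s' _ =>
      shift R (Φ := fun m => ξ m * wp Λ (z + m)) (fun m hm m' h => by
        rw [cg m hm m' h, hΛ.wp_congr (z := z + m) (w := z + m') (mem_of_eq h (by ring))]) (um hd s s')] at h3
    simp only [sum_const, card_range, nsmul_eq_mul, iteratedDeriv_one] at h3
    apply mul_left_cancel₀ (pow_ne_zero 2 p0)
    simp only [iteratedDeriv_zero]
    simp only [Nat.factorial_one, Nat.cast_one] at h3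
    linear_combination -h3
  · rw [hf]
    simp only
    rw [← tsum_mul_left]
    refine (tsum_congr fun l => ?_).trans ((Equiv.addRight (⟨m, hm⟩ : L.lattice)).tsum_eq _)
    show _ = _ * T ξ d p 0 (l + m) z
    simp only [T, mul_sum]
    refine sum_congr rfl fun s _ => sum_congr rfl fun s' _ => ?_
    rw [show l + m + (s + s') * d = m + (l + (s + s') * d) by ring, mul _ hm _ (add_mem l.2 (um hd s s'))]
    ring

end Vale.Agent.P004C.In
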