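import Vale.Agent.P004C.In.Mod

/-!
# P004 C, block INT: integral functions on a residue disc
-/

open Finset Vale.Agent.P027H Filter Topology

namespace Vale.Agent.P004C.In

open Nv

namespace Md

variable {v : Nv} (m : Md v) {z w P : ℂ} {h g : ℂ → ℂ}

/-- base points -/
def G (P : ℂ) : Prop := P ∉ m.Λ ∧ v.U (m.x P)

/-- the disc -/
def D (P z : ℂ) : Prop := z ∉ m.Λ ∧ m.x z - m.x P ∈ v.M ∧ m.y z - m.y P ∈ v.M

/-- equality near every point of the disc -/
def E (P : ℂ) (h g : ℂ → ℂ) : Prop := ∀ z, m.D P z → h =ᶠ[𝓝 z] g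

/-- integral functions on the disc -/
inductive Rg (P : ℂ) : (ℂ → ℂ) → Prop
  | c (a : ℂ) : a ∈ v.O → Rg P fun _ => a
  | x : Rg P m.x
  | y : Rg P m.y
  | add {h g : ℂ → ℂ} : Rg P h → Rg P g → Rg P fun z => h z + g z
  | mul {h g : ℂ → ℂ} : Rg P h → Rg P g → Rg P fun z => h z * g z
  | inv {h : ℂ → ℂ} : Rg P h → v.U (h P) → Rg P fun z => (h z)⁻¹
  | congr {h g : ℂ → ℂ} : Rg P h → m.E P g h → Rg P g

variable {m}

theorem G.it (hP : m.G P) : m.It P := ⟨hP.1, hP.2.mem⟩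
theorem G.D (hP : m.G P) : m.D P P := ⟨hP.1, by rw [sub_self]; exact zero_mem _,
  by rw [sub_self]; exact zero_mem _⟩
theorem G.xU (hP : m.G P) (hz : m.D P z) : v.U (m.x z) := hP.2.of_sub hz.2.1
theorem G.itD (hP : m.G P) (hz : m.D P z) : m.It z := ⟨hz.1, (hP.xU hz).mem⟩
theorem D.congr (hz : m.D P z) (e : w - z ∈ m.Λ) : m.D P w :=
  ⟨fun k => hz.1 (mem_of_eq (sub_mem k e) (by ring)), by rw [m.x_congr e]; exact hz.2.1,
    by rw [m.y_congr e]; exact hz.2.2⟩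
theorem D.ev (hz : m.D P z) : ∀ᶠ w in 𝓝 z, w ∉ m.Λ := m.lat.notMem_nhds hz.1

theorem E.of_eq (e : ∀ z, h z = g z) : m.E P h g := fun _ _ => Eventually.of_forall e
theorem E.of_notMem (e : ∀ z, z ∉ m.Λ → h z = g z) : m.E P h g := fun _ hz => hz.ev.mono e

theorem Rg.eq (hh : m.Rg P h) (e : ∀ z, g z = h z) : m.Rg P g := hh.congr (E.of_eq e)
theorem Rg.neg (hh : m.Rg P h) : m.Rg P fun z => -h z :=
  ((Rg.c (-1) (neg_mem (one_mem _))).mul hh).eq fun z => by ring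
theorem Rg.sub (hh : m.Rg P h) (hg : m.Rg P g) : m.Rg P fun z => h z - g z :=
  (hh.add hg.neg).eq fun z => by ring
theorem Rg.pow (hh : m.Rg P h) (n : ℕ) : m.Rg P fun z => h z ^ n := by
  induction n with
  | zero => exact (Rg.c 1 (one_mem _)).eq fun z => pow_zero _
  | succ n ih => exact (ih.mul hh).eq fun z => pow_succ _ _
theorem Rg.zpow (hh : m.Rg P h) (hu : v.U (h P)) (n : ℤ) : m.Rg P fun z => h z ^ n := by
  obtain ⟨n, rfl | rfl⟩ := n.eq_nat_or_neg
  · exact (hh.pow n).eq fun z => zpow_natCast _ _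
  · exact ((hh.inv hu).pow n).eq fun z => by rw [zpow_neg, zpow_natCast, inv_pow]
theorem Rg.div (hh : m.Rg P h) (hg : m.Rg P g) (hu : v.U (g P)) : m.Rg P fun z => h z / g z :=
  (hh.mul (hg.inv hu)).eq fun _ => div_eq_mul_inv _ _
theorem Rg.smul {a : ℂ} (ha : a ∈ v.O) (hh : m.Rg P h) : m.Rg P fun z => a * h z :=
  (Rg.c a ha).mul hh
theorem Rg.sum {κ : Type} (s : Finset κ) {F : κ → ℂ → ℂ} (hF : ∀ i ∈ s, m.Rg P (F i)) :
    m.Rg P fun z => ∑ i ∈ s, F i z := by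
  classical
  induction s using Finset.induction_on with
  | empty => exact (Rg.c 0 (zero_mem _)).eq fun z => sum_empty
  | insert i s hi ih =>
    exact ((hF i (mem_insert_self _ _)).add (ih fun k hk => hF k (mem_insert_of_mem hk))).eq
      fun z => sum_insert hi

theorem Rg.val (hP : m.G P) (hh : m.Rg P h) : h P ∈ v.O ∧ ∀ z, m.D P z → h z - h P ∈ v.M := by
  induction hh with
  | c a ha => exact ⟨ha, fun z _ => by rw [sub_self]; exact zero_mem _⟩
  | x => exact ⟨hP.it.2, fun z hz => hz.2.1⟩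
  | y => exact ⟨hP.it.y, fun z hz => hz.2.2⟩
  | add _ _ i1 i2 =>
    exact ⟨add_mem i1.1 i2.1, fun z hz => M_eq (add_mem (i1.2 z hz) (i2.2 z hz)) (by ring)⟩
  | @mul h g _ _ i1 i2 =>
    refine ⟨mul_mem i1.1 i2.1, fun z hz => ?_⟩
    have : g z ∈ v.O := O_eq (add_mem (M_O (i2.2 z hz)) i2.1) (by ring)
    exact M_eq (add_mem (M_mul (i1.2 z hz) this) (mul_M i1.1 (i2.2 z hz))) (by ring)
  | @inv h _ hu i1 =>
    refine ⟨hu.inv.mem, fun z hz => ?_⟩
    have k := hu.of_sub (i1.2 z hz)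
    refine M_eq (neg_mem (M_mul (i1.2 z hz) (mul_mem k.inv.mem hu.inv.mem))) ?_
    have := k.ne
    have := hu.ne
    field_simp; ring
  | congr _ e i1 =>
    rw [(e P hP.D).eq_of_nhds]
    exact ⟨i1.1, fun z hz => by rw [(e z hz).eq_of_nhds]; exact i1.2 z hz⟩

theorem Rg.mem (hP : m.G P) (hh : m.Rg P h) (hz : m.D P z) : h z ∈ v.O :=
  O_eq (add_mem (M_O ((hh.val hP).2 z hz)) (hh.val hP).1) (by ring)

theorem Rg.unit (hP : m.G P) (hh : m.Rg P h) (hu : v.U (h P)) (hz : m.D P z) : v.U (h z) :=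
  hu.of_sub ((hh.val hP).2 z hz)

theorem Rg.an (hP : m.G P) (hh : m.Rg P h) (hz : m.D P z) : AnalyticAt ℂ h z := by
  induction hh with
  | c a ha => exact analyticAt_const
  | x => exact m.ax hz.1
  | y => exact m.ay hz.1
  | add _ _ i1 i2 => exact i1.add i2
  | mul _ _ i1 i2 => exact i1.mul i2
  | inv hh hu i1 => exact i1.inv (hh.unit hP hu hz).ne
  | congr _ e i1 => exact i1.congr (e z hz).symm

theorem Rg.evd (hP : m.G P) (hh : m.Rg P h) (hz : m.D P z) :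
    ∀ᶠ w in 𝓝 z, HasDerivAt h (deriv h w) w :=
  (hh.an hP hz).eventually_analyticAt.mono fun _ k => k.differentiableAt.hasDerivAt

theorem Rg.evne (hP : m.G P) (hh : m.Rg P h) (hu : v.U (h P)) (hz : m.D P z) :
    ∀ᶠ w in 𝓝 z, h w ≠ 0 := (hh.an hP hz).continuousAt.eventually_ne (hh.unit hP hu hz).ne

theorem Rg.der (hP : m.G P) (hh : m.Rg P h) : m.Rg P fun z => deriv h z / m.u := by
  have u0 := m.u0
  induction hh with
  | c a ha => exact (Rg.c 0 (zero_mem _)).eq fun z => by rw [deriv_const, zero_div]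
  | x =>
    refine ((Rg.y.smul (ofNat_mem _ 2)).add Rg.x).congr (E.of_notMem fun z hz => ?_)
    rw [(m.dx hz).deriv]; field_simp
  | y =>
    refine ((((Rg.x.pow 2).smul (ofNat_mem _ 3)).add (Rg.c _ m.bU.mem)).sub Rg.y).congr
      (E.of_notMem fun z hz => ?_)
    rw [(m.dy hz).deriv]; field_simp
  | add h1 h2 i1 i2 =>
    refine (i1.add i2).congr fun z hz => ?_
    filter_upwards [h1.evd hP hz, h2.evd hP hz] with w a b
    rw [(a.fun_add b).deriv, add_div]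
  | mul h1 h2 i1 i2 =>
    refine ((i1.mul h2).add (h1.mul i2)).congr fun z hz => ?_
    filter_upwards [h1.evd hP hz, h2.evd hP hz] with w a b
    rw [(a.fun_mul b).deriv]; ring
  | inv h1 hu i1 =>
    refine (i1.mul ((h1.inv hu).pow 2)).neg.congr fun z hz => ?_
    filter_upwards [h1.evd hP hz, h1.evne hP hu hz] with w a b
    rw [(a.fun_inv b).deriv]; ring
  | congr _ e i1 =>
    refine i1.congr fun z hz => ?_
    filter_upwards [(e z hz).deriv] with w a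
    rw [a]

theorem shift {l : ℂ} (e : h =ᶠ[𝓝 (z + l)] g) :
    (fun w => h (w + l)) =ᶠ[𝓝 z] fun w => g (w + l) :=
  ((continuous_add_const l).tendsto z).eventually e

theorem Rg.per (hh : m.Rg P h) {l : ℂ} (hl : l ∈ m.Λ) : m.E P (fun w => h (w + l)) h := by
  have e0 : ∀ w : ℂ, w + l - w ∈ m.Λ := fun w => mem_of_eq hl (by ring)
  induction hh with
  | c a ha => exact E.of_eq fun _ => rfl
  | x => exact E.of_eq fun w => m.x_congr (e0 w)
  | y => exact E.of_eq fun w => m.y_congr (e0 w)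
  | add _ _ i1 i2 => exact fun z hz => (i1 z hz).add (i2 z hz)
  | mul _ _ i1 i2 => exact fun z hz => (i1 z hz).mul (i2 z hz)
  | inv _ _ i1 => exact fun z hz => (i1 z hz).inv
  | congr _ e i1 =>
    exact fun z hz => ((shift (e _ (hz.congr (e0 z)))).trans (i1 z hz)).trans (e z hz).symm

theorem G.eta (hP : m.G P) : v.U (2 * m.y P + m.x P) :=
  (hP.2.add (two_mul_M hP.it.y)).eq (add_comm _ _)

theorem Rg.dd (hP : m.G P) (hh : m.Rg P h) :
    ∃ W, m.Rg P W ∧ m.E P h fun z => h P + (m.x z - m.x P) * W z := by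
  induction hh with
  | c a ha => exact ⟨_, Rg.c 0 (zero_mem _), E.of_eq fun z => by ring⟩
  | x => exact ⟨_, Rg.c 1 (one_mem _), E.of_eq fun z => by ring⟩
  | y =>
    have hd : m.Rg P fun z => m.y z + m.y P + m.x z := (Rg.y.add (Rg.c _ hP.it.y)).add Rg.x
    have hu : v.U (m.y P + m.y P + m.x P) := hP.eta.eq (by ring)
    refine ⟨_, (((Rg.x.pow 2).add (Rg.x.smul hP.it.2)).add (Rg.c (m.x P ^ 2 + m.b - m.y P)
      (sub_mem (add_mem (pow_mem hP.it.2 2) m.bU.mem) hP.it.y))).div hd hu, fun z hz => ?_⟩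
    filter_upwards [hz.ev, hd.evne hP hu hz] with w a b
    rw [← mul_div_assoc, ← sub_eq_iff_eq_add', eq_div_iff b]
    linear_combination m.eqn a - m.eqn hP.1
  | add _ _ i1 i2 =>
    obtain ⟨W1, r1, e1⟩ := i1
    obtain ⟨W2, r2, e2⟩ := i2
    refine ⟨_, r1.add r2, fun z hz => ?_⟩
    filter_upwards [e1 z hz, e2 z hz] with w a b
    linear_combination a + b
  | @mul h g h1 h2 i1 i2 =>
    obtain ⟨W1, r1, e1⟩ := i1
    obtain ⟨W2, r2, e2⟩ := i2
    refine ⟨_, (r1.mul h2).add (r2.smul (h1.val hP).1), fun z hz => ?_⟩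
    filter_upwards [e1 z hz, e2 z hz] with w a b
    linear_combination g w * a + h P * b
  | @inv h h1 hu i1 =>
    obtain ⟨W1, r1, e1⟩ := i1
    refine ⟨_, ((r1.mul (h1.inv hu)).smul hu.inv.mem).neg, fun z hz => ?_⟩
    filter_upwards [e1 z hz, h1.evne hP hu hz] with w a b
    have := hu.ne
    have a' : (m.x w - m.x P) * W1 w = h w - h P := by linear_combination -a
    rw [show (m.x w - m.x P) * -((h P)⁻¹ * (W1 w * (h w)⁻¹)) =
      -((h P)⁻¹ * ((m.x w - m.x P) * W1 w) * (h w)⁻¹) by ring, a']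
    field_simp; ring
  | congr _ e i1 =>
    obtain ⟨W1, r1, e1⟩ := i1
    refine ⟨_, r1, fun z hz => (e z hz).trans ?_⟩
    rw [(e P hP.D).eq_of_nhds]
    exact e1 z hz

theorem rg_sl (hw : m.It w) (hu : v.U (m.x P - m.x w)) : m.Rg P fun z => m.sl z w :=
  (Rg.y.sub (Rg.c _ hw.y)).div (Rg.x.sub (Rg.c _ hw.2)) hu

theorem ev_sl (hP : m.G P) (hw : m.It w) (hu : v.U (m.x P - m.x w)) (hz : m.D P z) :
    ∀ᶠ s in 𝓝 z, s ∉ m.Λ ∧ m.x s ≠ m.x w :=
  hz.ev.and (((Rg.x.sub (Rg.c _ hw.2)).evne hP hu hz).mono fun _ k => sub_ne_zero.1 k)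

theorem rg_tr (hP : m.G P) (hw : m.It w) (hu : v.U (m.x P - m.x w)) :
    m.Rg P fun z => m.x (z + w) := by
  have s := rg_sl hw hu
  refine ((((s.pow 2).add s).sub Rg.x).sub (Rg.c _ hw.2)).congr fun z hz => ?_
  filter_upwards [ev_sl hP hw hu hz] with s a
  exact (m.add a.1 hw.1 a.2).2

end Md

end Vale.Agent.P004C.In
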