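import Vale.Agent.P004C.In.Rg

/-!
# P004 C, block INT: the canonical isogeny of degree two
-/

open Finset Vale.Agent.P027H Filter Topology

namespace Vale.Agent.P004C.In

open Nv

theorem roots {Λ : Submodule ℤ ℂ} (h : IsLat Λ) {p q : ℂ} (hp : p ∉ Λ) (hq : q ∉ Λ)
    (hpq : q - p ∉ Λ) (p2 : 2 * p ∈ Λ) (q2 : 2 * q ∈ Λ) :
    q + p ∉ Λ ∧ wp Λ p - wp Λ q ≠ 0 ∧ wp Λ p + wp Λ q + wp Λ (q + p) = 0 ∧
      g2 Λ = 4 * (wp Λ p ^ 2 + wp Λ p * wp Λ q + wp Λ q ^ 2) := by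
  have h3 : q + p ∉ Λ := fun e => hpq (mem_of_eq (sub_mem e p2) (by ring))
  have r : ∀ z, z ∉ Λ → 2 * z ∈ Λ → 4 * wp Λ z ^ 3 - g2 Λ * wp Λ z - g3 Λ = 0 := fun z a b => by
    rw [← h.ode a, (h.dwp_eq_zero a).2 b]; ring
  have r1 := r p hp p2
  have r2 := r q hq q2
  have r3 := r (q + p) h3 (mem_of_eq (add_mem p2 q2) (by ring))
  have n1 : wp Λ p - wp Λ q ≠ 0 := sub_ne_zero.2 (h.wp_ne hq hp hpq h3).symm
  have n2 : wp Λ (q + p) - wp Λ q ≠ 0 := sub_ne_zero.2 (h.wp_ne h3 hq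
    (fun e => hp (mem_of_eq e (by ring))) fun e => hp (mem_of_eq (sub_mem e q2) (by ring)))
  have n3 : wp Λ (q + p) - wp Λ p ≠ 0 := sub_ne_zero.2 (h.wp_ne h3 hp
    (fun e => hq (mem_of_eq e (by ring))) fun e => hq (mem_of_eq (sub_mem e p2) (by ring)))
  have g1 : g2 Λ = 4 * (wp Λ p ^ 2 + wp Λ p * wp Λ q + wp Λ q ^ 2) :=
    mul_left_cancel₀ n1 (by linear_combination r2 - r1)
  have g3 : g2 Λ = 4 * (wp Λ (q + p) ^ 2 + wp Λ (q + p) * wp Λ q + wp Λ q ^ 2) :=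
    mul_left_cancel₀ n2 (by linear_combination r2 - r3)
  exact ⟨h3, n1, mul_left_cancel₀ n3 (by linear_combination (g1 - g3) / 4), g1⟩

theorem U16 {v : Nv} {c : ℂ} (hc : c ∈ v.O) {n : ℂ} (hn : n ∈ v.O) : v.U (1 + 2 * n * c) :=
  (U.one.add (two_mul_M (mul_mem hn hc))).eq (by ring)

theorem can_U {v : Nv} {A B : ℂ} (hA : A ≠ 0) (h : v.V B = v.V 16 * v.V A) : v.U (B / (16 * A)) := by
  rw [U, map_div₀, map_mul, h, div_self]
  exact mul_ne_zero (v.V.ne_zero (by norm_num)) (v.V.ne_zero hA)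

theorem Md.ex (v : Nv) {Λ : Submodule ℤ ℂ} (h : IsLat Λ) {p q : ℂ} (hp : p ∉ Λ) (hq : q ∉ Λ)
    (hpq : q - p ∉ Λ) (p2 : 2 * p ∈ Λ) (q2 : 2 * q ∈ Λ)
    (can : v.V (wp Λ (q + p) - wp Λ q) = v.V 16 * v.V (wp Λ p - wp Λ q)) :
    ∃ m : Md v, m.Λ = Λ ∧ m.q = q := by
  obtain ⟨-, n1, s, g⟩ := roots h hp hq hpq p2 q2
  have hc := can_U n1 can
  set c := (wp Λ (q + p) - wp Λ q) / (16 * (wp Λ p - wp Λ q)) with hcd
  have e : wp Λ (q + p) - wp Λ q = c * (16 * (wp Λ p - wp Λ q)) := by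
    rw [hcd, div_mul_cancel₀ _ (mul_ne_zero (by norm_num) n1)]
  have hu := U16 hc.mem (ofNat_mem _ 8)
  obtain ⟨u, hu2⟩ := IsAlgClosed.exists_pow_nat_eq (12 * wp Λ q) two_pos
  have e2 : u ^ 2 = -4 * (wp Λ p - wp Λ q) * (1 + 2 * 8 * c) := by
    linear_combination hu2 + 4 * s - 4 * e
  have u0 : u ≠ 0 := by
    rintro rfl
    exact mul_ne_zero (mul_ne_zero (show (-4 : ℂ) ≠ 0 by norm_num) n1) hu.ne (by rw [← e2]; ring)
  refine ⟨⟨Λ, q, u, h, hq, q2, u0, hu2, (hc.mul (hu.pow 2).inv).eq ?_⟩, rfl, rfl⟩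
  have := hu.ne
  have num : 12 * wp Λ q ^ 2 - g2 Λ = 64 * c * (wp Λ p - wp Λ q) ^ 2 := by
    linear_combination -g + 4 * (wp Λ p - wp Λ q) * (e - s)
  rw [show u ^ 4 = (u ^ 2) ^ 2 by ring, e2, num]
  field_simp
  ring

/-- one step of the tower -/
structure Sp {v : Nv} (m m' : Md v) (p c ε : ℂ) : Prop where
  mem : ∀ z, z ∈ m'.Λ ↔ z ∈ m.Λ ∨ z - p ∈ m.Λ
  pn : p ∉ m.Λ
  p2 : 2 * p ∈ m.Λ
  cU : v.U c
  xp : m.x p = -(1 + 16 * c) / 4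
  b : m.b = -c * (1 + 16 * c)
  u : m'.u = 2 * ε * m.u
  ε2 : ε ^ 2 = 1 + 24 * c
  xx : ∀ z, 4 * ε ^ 2 * m'.x z = m.x z + m.x (z + p) - 4 * c

theorem Md.sp {v : Nv} (m m' : Md v) {p : ℂ} (mem : ∀ z, z ∈ m'.Λ ↔ z ∈ m.Λ ∨ z - p ∈ m.Λ)
    (hp : p ∉ m.Λ) (p2 : 2 * p ∈ m.Λ) (hq : m'.q = m.q)
    (can : v.V (wp m.Λ (m.q + p) - wp m.Λ m.q) = v.V 16 * v.V (wp m.Λ p - wp m.Λ m.q)) :
    ∃ c ε, Sp m m' p c ε := by
  have hpq : m.q - p ∉ m.Λ := fun e => m'.qn (hq ▸ (mem _).2 (Or.inr e))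
  obtain ⟨-, n1, s, g⟩ := roots m.lat hp m.qn hpq p2 m.q2
  have hc := can_U n1 can
  have u0 := m.u0
  have u2 := pow_ne_zero 2 u0
  rw [m.wp_eq p, m.wp_eq m.q, m.wp_eq (m.q + p), m.xq] at s hc
  rw [m.wp_eq p, m.wp_eq m.q, m.xq, m.g2_eq] at g
  rw [m.wp_eq p, m.wp_eq m.q, m.xq] at n1
  have x1 : m.x p ≠ 0 := fun e => n1 (by rw [e]; ring)
  have s' : m.x p + m.x (m.q + p) = -1 / 4 := mul_left_cancel₀ u2 (by linear_combination s)
  have g' : m.b = m.x p * m.x (m.q + p) := mul_left_cancel₀ (pow_ne_zero 4 u0)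
    (by linear_combination (-1 / 4) * g - m.u ^ 4 * m.x p * s')
  have hc' : v.U (m.x (m.q + p) / (16 * m.x p)) := hc.eq (by field_simp; ring)
  have hu := U16 hc'.mem (ofNat_mem _ 8)
  have cU : v.U (m.x (m.q + p) / 4) := by
    refine (hc'.mul hu.inv).neg.eq ?_
    have e : 1 + 2 * 8 * (m.x (m.q + p) / (16 * m.x p)) = -(4 * m.x p)⁻¹ := by
      field_simp; linear_combination 64 * s'
    rw [e]; field_simp; ring
  have R : Reps ![0, p] m.Λ m'.Λ := by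
    refine ⟨fun z hz => (mem z).2 (Or.inl hz), fun i => ?_, fun z hz => ?_, fun i k => ?_⟩
    · fin_cases i
      · exact zero_mem _
      · exact (mem _).2 (Or.inr (mem_of_eq (zero_mem _) (sub_self _)))
    · rcases (mem z).1 hz with e | e
      · exact ⟨0, by simpa using e⟩
      · exact ⟨1, e⟩
    · fin_cases i <;> fin_cases k <;> simp [hp]
  have W : ∀ z, wp m'.Λ z = m.u ^ 2 * (m.x z + m.x (z + p) - m.x p + 1 / 12) := fun z => by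
    rw [R.wp m.lat m'.lat, Fin.sum_univ_two]
    simp only [Matrix.cons_val_zero, Matrix.cons_val_one, sub_zero]
    rw [m.lat.wp_mem (zero_mem _), m.lat.wp_congr (z := z - p) (w := z + p)
      (mem_of_eq (neg_mem p2) (by ring)), m.wp_eq z, m.wp_eq p, m.wp_eq (z + p)]
    ring
  have U' := m'.usq
  rw [hq, W, m.xq] at U'
  have hu' : m'.u = 2 * (m'.u / (2 * m.u)) * m.u := by field_simp
  have e2 : (m'.u / (2 * m.u)) ^ 2 = 1 + 24 * (m.x (m.q + p) / 4) := by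
    rw [div_pow, div_eq_iff (pow_ne_zero 2 (mul_ne_zero two_ne_zero u0))]
    linear_combination U' - 12 * m.u ^ 2 * s'
  refine ⟨m.x (m.q + p) / 4, m'.u / (2 * m.u), mem, hp, p2, cU, by linear_combination s',
    by linear_combination g' + m.x (m.q + p) * s', hu', e2, fun z => ?_⟩
  have := m'.u0
  rw [Md.x, hq, W, W, m.xq]
  field_simp; ring

namespace Sp

variable {v : Nv} {m m' : Md v} {p c ε z P : ℂ} (h : Sp m m' p c ε)
include h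

theorem le (hz : z ∈ m.Λ) : z ∈ m'.Λ := (h.mem z).2 (Or.inl hz)
theorem pm : p ∈ m'.Λ := (h.mem p).2 (Or.inr (mem_of_eq (zero_mem _) (sub_self _)))
theorem nm (hz : z ∉ m'.Λ) : z ∉ m.Λ := fun e => hz (h.le e)
theorem εU : v.U ε := U_sq ((U16 h.cU.mem (ofNat_mem _ 12)).eq (by rw [h.ε2]; ring))
theorem e1 : (ε - 1) / 2 ∈ v.O := O_quad (one_mem _) (c := 6 * c)
  (by linear_combination h.ε2 / 4) (mul_mem (ofNat_mem _ 6) h.cU.mem)

theorem sU (hz : m.x z ∈ v.O) : v.U (4 * m.x z + 1 + 16 * c) :=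
  (U16 (add_mem hz (mul_mem (ofNat_mem _ 4) h.cU.mem)) (ofNat_mem _ 2)).eq (by ring)

theorem nm' (hz : m.It z) : z ∉ m'.Λ := fun e => ((h.mem z).1 e).elim hz.1 fun k =>
  (h.sU hz.2).ne (by rw [m.x_congr k, h.xp]; ring)

theorem half (hz : z ∉ m'.Λ) :
    m.x (z + p) * (4 * m.x z + 1 + 16 * c) = -(1 + 16 * c) * (m.x z - 4 * c) ∧
      4 * m.x z + 1 + 16 * c ≠ 0 := by
  have k : z - p ∉ m.Λ := fun e => hz ((h.mem z).2 (Or.inr e))
  have w := m.lat.wp_half h.pn h.p2 (h.nm hz) k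
  rw [m.lat.wp_congr (z := z - p) (w := z + p) (mem_of_eq (neg_mem h.p2) (by ring)), m.wp_eq z,
    m.wp_eq p, m.wp_eq (z + p), m.g2_eq, h.xp, h.b] at w
  refine ⟨mul_left_cancel₀ (pow_ne_zero 4 m.u0) (by linear_combination 4 * w), fun e => ?_⟩
  exact m.x_ne (h.nm hz) h.pn k (fun e => k (mem_of_eq (sub_mem e h.p2) (by ring)))
    (by rw [h.xp]; linear_combination e / 4)

theorem x' (hz : z ∉ m'.Λ) :
    ε ^ 2 * (4 * m.x z + 1 + 16 * c) * m'.x z = m.x z * (m.x z - 4 * c) := by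
  linear_combination (4 * m.x z + 1 + 16 * c) / 4 * h.xx z + (h.half hz).1 / 4

theorem y' (hz : z ∉ m'.Λ) : ε ^ 3 * (4 * m.x z + 1 + 16 * c) ^ 2 * m'.y z =
    m.y z ^ 2 + (8 * ε * c - (1 + 16 * c) * ((ε - 1) / 2)) * m.x z ^ 2 + 2 * (m.y z *
      (m.x z * (1 + 8 * c - ε) + m.x z ^ 2 - c * (1 + 16 * c) - ε * m.y z)) := by
  have a := h.nm hz
  have d1 := ((((m.dx a).const_mul 4).add_const 1).add_const (16 * c)).const_mul (ε ^ 2) |>.fun_mul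
    (m'.dx hz)
  have d2 := (m.dx a).fun_mul ((m.dx a).sub_const (4 * c))
  have e := d1.unique (d2.congr_of_eventuallyEq
    ((m'.lat.notMem_nhds hz).mono fun w hw => h.x' hw))
  rw [h.u] at e
  have x := h.x' hz
  have q := m.eqn a
  rw [h.b] at q
  apply mul_left_cancel₀ m.u0
  linear_combination (4 * m.x z + 1 + 16 * c) / 4 * e - m.u * ((2 * m.y z + m.x z) +
    ε * (4 * m.x z + 1 + 16 * c) / 2) * x + m.u * (2 * ε - 1) * q

theorem grow (hz : z ∉ m'.Λ) (k : m.x z ∉ v.O) : v.V (m.x z) < v.V (m'.x z) := by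
  have i := inv_M k
  have x0 : m.x z ≠ 0 := fun e => k (e ▸ zero_mem _)
  have a1 : 4 + (1 + 16 * c) * (m.x z)⁻¹ ∈ v.M := add_mem (M_eq (two_mul_M (ofNat_mem _ 2))
    (by norm_num)) (mul_M (add_mem (one_mem _) (mul_mem (ofNat_mem _ 16) h.cU.mem)) i)
  have a2 : v.U (1 - 4 * c * (m.x z)⁻¹) :=
    (U.one.add (neg_mem (mul_M (mul_mem (ofNat_mem _ 4) h.cU.mem) i))).eq (by ring)
  have e : ε ^ 2 * (4 + (1 + 16 * c) * (m.x z)⁻¹) * m'.x z = m.x z * (1 - 4 * c * (m.x z)⁻¹) := by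
    apply mul_left_cancel₀ x0
    have := h.x' hz
    field_simp
    linear_combination this
  have e' := congrArg v.V e
  rw [map_mul, map_mul, map_mul, h.εU.pow 2, a2, one_mul, mul_one] at e'
  have p0 : 0 < v.V (m'.x z) := by
    refine (v.V.nonneg _).lt_of_ne fun e0 => ?_
    rw [← e0, mul_zero] at e'
    exact (v.V.pos x0).ne e'
  rw [← e']
  exact mul_lt_of_lt_one_left p0 a1

end Sp

end Vale.Agent.P004C.In
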