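import Vale.Agent.P004C.In.Avg

/-!
# P004 C, block INT: sums over the tower, generic base points
-/

open Finset Vale.Agent.P027H Filter Topology Polynomial

namespace Vale.Agent.P004C.In

open Nv Md

namespace Tw

variable {V : AbsoluteValue ℂ ℝ} {Λ : ℕ → Submodule ℤ ℂ} {t : ℕ → ℂ} {q : ℂ} (T : Tw V Λ t q)
include T

theorem le1 (a : ℕ) {z : ℂ} (hz : z ∈ Λ a) : z ∈ Λ (a + 1) := (T.mem a z).2 (Or.inl hz)

theorem le (a : ℕ) {z : ℂ} (hz : z ∈ Λ 0) : z ∈ Λ a := by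
  induction a with
  | zero => exact hz
  | succ a ih => exact T.le1 a ih

theorem tm (a : ℕ) : t a ∈ Λ a := by
  cases a with
  | zero => exact T.t0
  | succ a => exact (T.mem a _).2 (Or.inr (mem_of_eq (zero_mem _) (sub_self _)))

theorem shift : Tw V (fun a => Λ (a + 1)) (fun a => t (a + 1)) q :=
  ⟨fun _ => T.lat _, fun _ => T.mem _, fun _ => T.nm _, T.tm 1, fun _ => T.le 1 (T.dbl _),
    T.le 1 T.q2, fun _ => T.qn _, fun _ => T.can _⟩

theorem two (a : ℕ) : 2 * t (a + 1) ∈ Λ a :=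
  mem_of_eq (add_mem (T.le a (T.dbl a)) (T.tm a)) (by ring)

theorem pw (a : ℕ) : 2 ^ a * t (a + 1) - t 1 ∈ Λ 0 := by
  induction a with
  | zero => exact mem_of_eq (zero_mem _) (by ring)
  | succ a ih =>
    exact mem_of_eq (add_mem (nat_mul_mem (2 ^ a) (T.dbl (a + 1))) ih) (by push_cast; ring)

theorem pw0 (a : ℕ) : ((2 ^ a : ℕ) : ℂ) * t a ∈ Λ 0 := by
  cases a with
  | zero => exact mem_of_eq T.t0 (by push_cast; ring)
  | succ a => exact mem_of_eq (add_mem (nat_mul_mem 2 (T.pw a)) (T.two 0)) (by push_cast; ring)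

theorem dvd (a : ℕ) (j : ℕ) (h : (j : ℂ) * t a ∈ Λ 0) : 2 ^ a ∣ j := by
  induction a generalizing j with
  | zero => exact one_dvd _
  | succ a ih =>
    obtain ⟨k, rfl | rfl⟩ := j.even_or_odd'
    · rw [pow_succ']
      exact mul_dvd_mul_left 2 (ih k (mem_of_eq (sub_mem h (nat_mul_mem k (T.dbl a)))
        (by push_cast; ring)))
    · exact (T.nm a (mem_of_eq (sub_mem (T.le a h) (nat_mul_mem k (T.two a)))
        (by push_cast; ring))).elim

theorem nz {a j : ℕ} (h0 : j ≠ 0) (h : j < 2 ^ a) : (j : ℂ) * t a ∉ Λ 0 := fun e =>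
  (Nat.le_of_dvd (Nat.pos_of_ne_zero h0) (T.dvd a j e)).not_gt h

end Tw

variable {v : Nv} {Λ : ℕ → Submodule ℤ ℂ} {t : ℕ → ℂ} {q P z : ℂ} {m : Md v} {f : ℂ → ℂ}

theorem Tw.md (T : Tw v.V Λ t q) : ∃ m : Md v, m.Λ = Λ 0 ∧ m.q = q :=
  Md.ex v (T.lat 0) (T.nm 0) (T.qn 0) (fun e => T.qn 1 ((T.mem 0 _).2 (Or.inr e))) (T.two 0) T.q2
    (T.can 0)

theorem Tw.sp (T : Tw v.V Λ t q) (h1 : m.Λ = Λ 0) (h2 : m.q = q) :
    ∃ (m' : Md v) (c ε : ℂ), m'.Λ = Λ 1 ∧ m'.q = q ∧ Sp m m' (t 1) c ε := by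
  obtain ⟨m', k1, k2⟩ := T.shift.md
  obtain ⟨c, ε, s⟩ := m.sp m' (p := t 1) (by rw [k1, h1]; exact T.mem 0) (h1 ▸ T.nm 0)
    (h1 ▸ T.two 0) (k2.trans h2.symm) (by rw [h1, h2]; exact T.can 0)
  exact ⟨m', c, ε, k1, k2, s⟩

theorem Tw.D (T : Tw v.V Λ t q) (h1 : m.Λ = Λ 0) (h2 : m.q = q) (hP : m.G P) (hz : m.D P z)
    (a : ℕ) {l : ℂ} (hl : l ∈ Λ a) : m.D P (z + l) := by
  induction a generalizing Λ t m with
  | zero => exact hz.congr (h1 ▸ mem_of_eq hl (by ring))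
  | succ a ih =>
    obtain ⟨m', c, ε, k1, k2, s⟩ := T.sp h1 h2
    exact (s.D hP).1 (ih T.shift k1 k2 (s.G hP) ((s.D hP).2 hz) hl)

theorem Tw.Dj (T : Tw v.V Λ t q) (h1 : m.Λ = Λ 0) (h2 : m.q = q) (hP : m.G P) (hz : m.D P z)
    (a j : ℕ) : m.D P (z + j * t a) := T.D h1 h2 hP hz a (nat_mul_mem j (T.tm a))

theorem Md.Rg.dsh (hP : m.G P) (hf : m.Rg P f) {l : ℂ} (hz : m.D P (z + l)) :
    HasDerivAt (fun w => f (w + l)) (deriv f (z + l)) z :=
  (hf.an hP hz).differentiableAt.hasDerivAt.comp_add_const z l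

theorem Md.Rg.dmem (hP : m.G P) (hf : m.Rg P f) (hz : m.D P z) : deriv f z / m.u ∈ v.O :=
  by have := (hf.der hP).mem hP hz; exact this

theorem alg1 (a : ℕ) (A B : ℂ) :
    (2 * A + 2 ^ (2 * (a + 1)) * B) / 2 ^ (a + 1) = A / 2 ^ a + 2 ^ (a + 1) * B := by
  field_simp; ring

theorem alg2 (a : ℕ) (A B : ℂ) {u ε : ℂ} (u0 : u ≠ 0) (e0 : ε ≠ 0) :
    (2 * A + 2 ^ (2 * (a + 1)) * B) / (u * 4 ^ (a + 1)) =
      ε * (A / (2 * ε * u * 4 ^ a)) + B / u := by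
  rw [pow_mul, show (2 : ℂ) ^ 2 = 4 by norm_num]
  field_simp; ring

theorem Tw.avg (T : Tw v.V Λ t q) (h1 : m.Λ = Λ 0) (h2 : m.q = q) (hP : m.G P) (hf : m.Rg P f)
    (hz : m.D P z) (a : ℕ) : (∑ j ∈ range (2 ^ a), f (z + j * t a)) / 2 ^ a ∈ v.O ∧
      (∑ j ∈ range (2 ^ a), deriv f (z + j * t a)) / (m.u * 4 ^ a) ∈ v.O := by
  induction a generalizing Λ t m f with
  | zero =>
    have := T.Dj h1 h2 hP hz 0 0
    simp only [pow_zero, range_one, sum_singleton, div_one, mul_one]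
    exact ⟨hf.mem hP this, hf.dmem hP this⟩
  | succ a ih =>
    obtain ⟨m', c, ε, k1, k2, s⟩ := T.sp h1 h2
    obtain ⟨g, r, hg, hr, e⟩ := s.step hP (2 * (a + 1)) hf
    have hz' := (s.D hP).2 hz
    obtain ⟨i1, i2⟩ := ih T.shift k1 k2 (s.G hP) hg hz'
    have Dj := T.Dj h1 h2 hP hz (a + 1)
    have Dp := fun j => s.Dp hP (Dj j) s.pm
    have E1 : (fun w => ∑ j ∈ range (2 ^ (a + 1)), f (w + j * t (a + 1))) =ᶠ[𝓝 z] fun w =>
        2 * ∑ j ∈ range (2 ^ a), g (w + j * t (a + 1)) + 2 ^ (2 * (a + 1)) *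
          ∑ j ∈ range (2 ^ a), (r (w + j * t (a + 1)) + r (w + (j * t (a + 1) + t 1))) := by
      have : ∀ j ∈ range (2 ^ a), ∀ᶠ w in 𝓝 z, f (w + j * t (a + 1)) +
          f (w + ((2 ^ a + j : ℕ) : ℂ) * t (a + 1)) = 2 * g (w + j * t (a + 1)) + 2 ^ (2 * (a + 1)) *
            (r (w + j * t (a + 1)) + r (w + (j * t (a + 1) + t 1))) := fun j _ => by
        have p := hf.per (h1 ▸ T.pw a) _ (Dp j)
        rw [add_assoc] at p
        filter_upwards [Md.shift (e _ (Dj j)), Md.shift p] with w a1 a2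
        rw [← add_assoc w, ← a1, add_assoc w, ← a2]
        congr 2
        push_cast; ring
      filter_upwards [(eventually_all_finset _).2 this] with w k
      rw [pow_succ, mul_two, sum_range_add, ← sum_add_distrib, sum_congr rfl k, sum_add_distrib,
        mul_sum, mul_sum]
    have R1 : ∑ j ∈ range (2 ^ a), (r (z + j * t (a + 1)) + r (z + (j * t (a + 1) + t 1))) ∈ v.O :=
      sum_mem fun j _ => add_mem (hr.mem hP (Dj j)) (hr.mem hP (add_assoc z _ _ ▸ Dp j))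
    have R2 : (∑ j ∈ range (2 ^ a), (deriv r (z + j * t (a + 1)) +
        deriv r (z + (j * t (a + 1) + t 1)))) / m.u ∈ v.O := by
      rw [sum_div]
      exact sum_mem fun j _ => add_div _ _ m.u ▸ add_mem (hr.dmem hP (Dj j))
        (hr.dmem hP (add_assoc z _ _ ▸ Dp j))
    have d1 := HasDerivAt.fun_sum fun j (_ : j ∈ range (2 ^ (a + 1))) => hf.dsh hP (Dj j)
    have d2 := ((HasDerivAt.fun_sum fun j (_ : j ∈ range (2 ^ a)) =>
      hg.dsh (s.G hP) ((s.D hP).2 (Dj j))).const_mul 2).fun_add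
      ((HasDerivAt.fun_sum fun j (_ : j ∈ range (2 ^ a)) => (hr.dsh hP (Dj j)).fun_add
        (hr.dsh hP (add_assoc z _ _ ▸ Dp j))).const_mul (2 ^ (2 * (a + 1))))
    have u0 := m.u0
    have e0 := s.εU.ne
    constructor
    · refine O_eq (add_mem i1 (mul_mem (pow_mem (ofNat_mem _ 2) (a + 1)) R1)) ?_
      rw [E1.eq_of_nhds, alg1]
    · refine O_eq (add_mem (mul_mem s.εU.mem i2) R2) ?_
      rw [d1.unique (d2.congr_of_eventuallyEq E1), s.u, alg2 a _ _ u0 e0]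

/-! ### generic points -/

theorem exists_scale (v : Nv) {κ : Type} (s : Finset κ) (c : κ → ℂ) (h : ∃ i ∈ s, c i ≠ 0) :
    ∃ i ∈ s, c i ≠ 0 ∧ ∀ k ∈ s, c k / c i ∈ v.O := by
  obtain ⟨i0, h0, h1⟩ := h
  obtain ⟨i, hi, hm⟩ := s.exists_max_image (fun k => v.V (c k)) ⟨i0, h0⟩
  have p : 0 < v.V (c i) := (v.V.pos h1).trans_le (hm i0 h0)
  exact ⟨i, hi, v.V.pos_iff.1 p, fun k hk => by
    rw [mem_O, map_div₀]; exact (div_le_one p).2 (hm k hk)⟩

/-- the ideal of small elements -/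
def Nv.I (v : Nv) : Ideal v.O where
  carrier := {a | (a : ℂ) ∈ v.M}
  add_mem' := fun ha hb => v.M.add_mem ha hb
  zero_mem' := zero_mem v.M
  smul_mem' := fun c _ hb => mul_M c.2 hb

theorem Nv.mem_I {a : v.O} : a ∈ v.I ↔ (a : ℂ) ∈ v.M := Iff.rfl

instance Nv.I_prime (v : Nv) : v.I.IsPrime :=
  ⟨fun e => U.one.not_M (mem_I.1 (show (1 : v.O) ∈ v.I from e ▸ Submodule.mem_top)), fun {a _} h =>
    (U_or a.2).elim (fun k => Or.inr (M_of_mul (M_eq (mem_I.1 h) (mul_comm _ _)) k)) Or.inl⟩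

/-- primitive polynomials -/
def Pm (v : Nv) (F : v.O[X]) : Prop := F.map (Ideal.Quotient.mk v.I) ≠ 0

theorem Pm.mul {F G : v.O[X]} (hF : Pm v F) (hG : Pm v G) : Pm v (F * G) := by
  rw [Pm, Polynomial.map_mul]; exact mul_ne_zero hF hG

theorem Pm.ex {F : v.O[X]} (hF : Pm v F) : ∃ c : v.O, v.U (F.eval c : v.O) := by
  classical
  by_contra! k
  set n := F.natDegree
  have hN : (2 * n + 1 : ℕ) ≠ 0 := by omega
  have hp := Complex.isPrimitiveRoot_exp _ hN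
  set ζ := Complex.exp (2 * Real.pi * Complex.I / (2 * n + 1 : ℕ))
  have zU : v.U ζ := by
    have := congrArg v.V hp.pow_eq_one
    rw [map_pow, map_one] at this
    exact (pow_eq_one_iff_of_nonneg (v.V.nonneg _) hN).1 this
  let φ := Ideal.Quotient.mk v.I
  let η : v.O := ⟨ζ, zU.mem⟩
  have hη : η ^ (2 * n + 1) = 1 := Subtype.ext hp.pow_eq_one
  have inj : ∀ i, 0 < i → i < 2 * n + 1 → φ η ^ i ≠ 1 := fun i h0 h1 e => by
    have g : ∑ k ∈ range (2 * n + 1), (η ^ i) ^ k = 0 := by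
      have : (η ^ i - 1) ≠ 0 := sub_ne_zero.2 fun e' =>
        hp.pow_ne_one_of_pos_of_lt h0.ne' h1 (congrArg Subtype.val e')
      apply mul_right_cancel₀ this
      rw [geom_sum_mul, ← pow_mul, mul_comm, pow_mul, hη, one_pow, sub_self, zero_mul]
    have g' := congrArg φ g
    simp only [map_sum, map_pow, e, one_pow, sum_const, card_range, map_zero, nsmul_eq_mul,
      mul_one] at g'
    rw [← map_natCast φ, Ideal.Quotient.eq_zero_iff_mem] at g'
    refine (U.one.add (two_mul_M (natCast_mem v.O n))).not_M (M_eq (mem_I.1 g') ?_)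
    rw [Subring.coe_natCast]
    push_cast; ring
  have hp' : IsPrimitiveRoot (φ η) (2 * n + 1) := IsPrimitiveRoot.mk_of_lt _ (by omega)
    (by rw [← map_pow, hη, map_one]) inj
  have c1 : ((range (2 * n + 1)).image fun i => φ η ^ i) ⊆ (F.map φ).roots.toFinset := by
    intro x hx
    obtain ⟨i, -, rfl⟩ := mem_image.1 hx
    rw [Multiset.mem_toFinset, mem_roots hF, IsRoot, ← map_pow, eval_map, eval₂_at_apply,
      Ideal.Quotient.eq_zero_iff_mem]
    exact (U_or (F.eval (η ^ i)).2).resolve_left (k _)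
  have c2 := card_le_card c1
  rw [card_image_of_injOn (fun i hi k hk e => hp'.pow_inj (mem_range.1 hi) (mem_range.1 hk) e),
    card_range] at c2
  have c3 := (Multiset.toFinset_card_le _).trans (card_roots' (F.map φ))
  have c4 : (F.map φ).natDegree ≤ n := natDegree_map_le
  omega

end Vale.Agent.P004C.In
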